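import Vale.Agent.P157.Parisi.Sphere.Defs
import Vale.Agent.P157.Parisi.Site.Levels

/-!
Parisi recursions bounded below by the Gaussian one.
-/

noncomputable section

open MeasureTheory ProbabilityTheory Filter Topology Finset
open scoped BigOperators

namespace Vale.Agent.P157.Parisi.Sphere.Site

open Vale.Agent.P157.Parisi.Site

/-- Exponential of a quadratic against a standard Gaussian. -/
lemma integral_exp_quad {a : ℝ} (ha : a < 1) (b : ℝ) (φ : ℝ → ℝ) :
    ∫ g, φ g * Real.exp (a * g ^ 2 / 2 + b * g) ∂gaussianReal 0 1 =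
      Real.exp (b ^ 2 / (2 * (1 - a))) / Real.sqrt (1 - a) *
        ∫ g, φ (b / (1 - a) + (Real.sqrt (1 - a))⁻¹ * g) ∂gaussianReal 0 1 := by
  set c := 1 - a with hc
  have hc0 : 0 < c := by linarith
  set u := Real.sqrt c with hu
  have hu0 : 0 < u := Real.sqrt_pos.2 hc0
  have hu2 : u ^ 2 = c := Real.sq_sqrt hc0.le
  set G : ℝ → ℝ := fun h => gaussianPDFReal 0 1 ((h - b / c) * u) * φ h
  have e1 : ∫ g, φ (b / c + u⁻¹ * g) ∂gaussianReal 0 1 = u * ∫ h, G h := by
    rw [integral_gam1]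
    have e : (fun g => gaussianPDFReal 0 1 g * φ (b / c + u⁻¹ * g)) =
        fun g => G (b / c + u⁻¹ * g) := funext fun g => by
      simp only [G, add_sub_cancel_left]
      rw [mul_comm (u⁻¹ * g), ← mul_assoc, mul_inv_cancel₀ hu0.ne', one_mul]
    rw [e, Measure.integral_comp_mul_left (fun y => G (b / c + y)) u⁻¹, inv_inv, abs_of_pos hu0,
      smul_eq_mul, integral_add_left_eq_self (fun h => G h) (b / c)]
  have e2 : ∫ g, φ g * Real.exp (a * g ^ 2 / 2 + b * g) ∂gaussianReal 0 1 =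
      Real.exp (b ^ 2 / (2 * c)) * ∫ h, G h := by
    rw [integral_gam1, ← integral_const_mul]
    refine integral_congr_ae (ae_of_all _ fun g => ?_)
    simp only [G, gaussianPDFReal, NNReal.coe_one, mul_one, sub_zero]
    have : Real.exp (-g ^ 2 / 2) * Real.exp (a * g ^ 2 / 2 + b * g) =
        Real.exp (b ^ 2 / (2 * c)) * Real.exp (-((g - b / c) * u) ^ 2 / 2) := by
      rw [← Real.exp_add, ← Real.exp_add, mul_pow, hu2]
      congr 1
      rw [show a = 1 - c by rw [hc]; ring]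
      field_simp
      ring
    linear_combination (Real.sqrt (2 * Real.pi))⁻¹ * φ g * this
  rw [e1, e2]
  field_simp

/-- Measurable, with quadratic growth. -/
structure Quad (C : ℝ) (h : ℝ → ℝ) : Prop where
  meas : Measurable h
  bound : ∀ y, |h y| ≤ C * (1 + y ^ 2)

lemma integrable_sq_gauss : Integrable (fun g : ℝ => g ^ 2) (gaussianReal 0 1) :=
  (memLp_id_gaussianReal (μ := 0) (v := 1) 2).integrable_sq

lemma Quad.nonneg {C : ℝ} {h : ℝ → ℝ} (hq : Quad C h) : 0 ≤ C := by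
  have := (abs_nonneg _).trans (hq.bound 0)
  nlinarith

lemma Quad.integrable {C : ℝ} {h : ℝ → ℝ} (hq : Quad C h) (x a : ℝ) :
    Integrable (fun g => h (x + a * g)) (gaussianReal 0 1) := by
  refine ((((integrable_const (1 + 2 * x ^ 2)).add
    (integrable_sq_gauss.const_mul (2 * a ^ 2)))).const_mul C).mono'
    (hq.meas.comp (by fun_prop)).aestronglyMeasurable (ae_of_all _ fun g => ?_)
  rw [Real.norm_eq_abs]
  refine (hq.bound _).trans (mul_le_mul_of_nonneg_left ?_ hq.nonneg)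
  show _ ≤ 1 + 2 * x ^ 2 + 2 * a ^ 2 * g ^ 2
  nlinarith [sq_nonneg (x - a * g)]

lemma Quad.integrable_prod {C : ℝ} {h : ℝ → ℝ} (hq : Quad C h) (x a b : ℝ) :
    Integrable (fun p : ℝ × ℝ => h (x + a * p.1 + b * p.2))
      ((gaussianReal 0 1).prod (gaussianReal 0 1)) := by
  refine ((((integrable_const (1 + 3 * x ^ 2)).add
    ((integrable_sq_gauss.comp_fst _).const_mul (3 * a ^ 2))).add
    ((integrable_sq_gauss.comp_snd _).const_mul (3 * b ^ 2))).const_mul C).mono'
    (hq.meas.comp (by fun_prop)).aestronglyMeasurable (ae_of_all _ fun p => ?_)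
  rw [Real.norm_eq_abs]
  refine (hq.bound _).trans (mul_le_mul_of_nonneg_left ?_ hq.nonneg)
  show _ ≤ 1 + 3 * x ^ 2 + 3 * a ^ 2 * p.1 ^ 2 + 3 * b ^ 2 * p.2 ^ 2
  nlinarith [sq_nonneg (x - a * p.1), sq_nonneg (x - b * p.2), sq_nonneg (a * p.1 - b * p.2)]

/-- Two independent Gaussian shifts are one. -/
lemma Quad.combine {C : ℝ} {h : ℝ → ℝ} (hq : Quad C h) (x a b : ℝ) :
    Integrable (fun g => ∫ g', h (x + a * g + b * g') ∂gaussianReal 0 1) (gaussianReal 0 1) ∧
      ∫ g, ∫ g', h (x + a * g + b * g') ∂gaussianReal 0 1 ∂gaussianReal 0 1 =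
        ∫ u, h (x + Real.sqrt (a ^ 2 + b ^ 2) * u) ∂gaussianReal 0 1 := by
  have hi := hq.integrable_prod x a b
  refine ⟨hi.integral_prod_left, ?_⟩
  rw [← integral_prod _ hi]
  simp only [add_assoc]
  exact integral_combine (φ := fun z => h (x + z)) (hq.meas.comp (by fun_prop)) a b

/-- One step of the recursion above a quadratic function. -/
lemma layer_ge_quad {m δ D c A : ℝ} (hm : 0 < m) (hδ : 0 ≤ δ) (hD : m * δ < D) {F : ℝ → ℝ}
    (hF : Grow A F) (hD0 : 0 < D - m * δ) (x : ℝ) :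
    x ^ 2 / (2 * (D - m * δ)) + c + Real.log (D / (D - m * δ)) / (2 * m) +
        ∫ g, (F (x * (D / (D - m * δ)) + Real.sqrt (δ * (D / (D - m * δ))) * g) -
          (x * (D / (D - m * δ)) + Real.sqrt (δ * (D / (D - m * δ))) * g) ^ 2 / (2 * D) - c)
          ∂gaussianReal 0 1 ≤
      layer m δ F x := by
  set D₀ := D - m * δ with hD0d
  have hDp : 0 < D := by nlinarith
  set G : ℝ → ℝ := fun y => F y - y ^ 2 / (2 * D) - c
  set a := m * δ / D
  set b := m * Real.sqrt δ * x / D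
  have ha1 : 1 - a = D₀ / D := by
    simp only [a, hD0d]; field_simp
  have ha : a < 1 := by
    have : 0 < D₀ / D := by positivity
    linarith
  have hsd : Real.sqrt δ ^ 2 = δ := Real.sq_sqrt hδ
  have e1 : ∀ g, Real.exp (m * F (x + Real.sqrt δ * g)) =
      Real.exp (m * x ^ 2 / (2 * D) + m * c) *
        (Real.exp (m * G (x + Real.sqrt δ * g)) * Real.exp (a * g ^ 2 / 2 + b * g)) := fun g => by
    rw [← Real.exp_add, ← Real.exp_add]
    congr 1
    simp only [G, a, b]
    field_simp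
    linear_combination g ^ 2 * hsd
  have earg : ∀ g, x + Real.sqrt δ * (b / (1 - a) + (Real.sqrt (1 - a))⁻¹ * g) =
      x * (D / D₀) + Real.sqrt (δ * (D / D₀)) * g := fun g => by
    rw [Real.sqrt_mul hδ, ha1, ← Real.sqrt_inv, inv_div]
    simp only [b]
    field_simp
    linear_combination (x * m) * hsd - x * hD0d
  set M := x * (D / D₀)
  set s := Real.sqrt (δ * (D / D₀))
  have e2 : ∫ g, Real.exp (m * F (x + Real.sqrt δ * g)) ∂gaussianReal 0 1 =
      Real.exp (m * x ^ 2 / (2 * D) + m * c) * (Real.exp (b ^ 2 / (2 * (1 - a))) /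
        Real.sqrt (1 - a) * ∫ g, Real.exp (m * G (M + s * g)) ∂gaussianReal 0 1) := by
    simp only [e1]
    rw [integral_const_mul, integral_exp_quad ha b fun g => Real.exp (m * G (x + Real.sqrt δ * g))]
    simp only [earg]
  obtain ⟨B, hB⟩ : ∃ B, Quad B G := by
    refine ⟨|A| + 1 + 1 / (2 * D) + |c|, ⟨(hF.meas.sub (by fun_prop)).sub_const c, fun y => ?_⟩⟩
    have h1 := hF.le y
    have h2 := hF.nonneg y
    have h3 : |y| ≤ 1 + y ^ 2 := by nlinarith [abs_nonneg y, sq_abs y, sq_nonneg (|y| - 1)]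
    have h4 : 0 ≤ y ^ 2 / (2 * D) := by positivity
    have h5 : y ^ 2 / (2 * D) ≤ 1 / (2 * D) * (1 + y ^ 2) := by
      rw [div_eq_mul_one_div (y ^ 2), mul_comm (y ^ 2)]
      exact mul_le_mul_of_nonneg_left (by linarith) (by positivity)
    have h6 := mul_nonneg (add_nonneg (abs_nonneg A) (abs_nonneg c)) (sq_nonneg y)
    rw [abs_le]
    constructor <;> simp only [G] <;> linarith [le_abs_self A, le_abs_self c, neg_abs_le c, neg_abs_le A]
  have hGi : Integrable (fun g => m * G (M + s * g)) (gaussianReal 0 1) :=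
    (hB.integrable M s).const_mul m
  have hEi : Integrable (fun g => Real.exp (m * G (M + s * g))) (gaussianReal 0 1) := by
    refine ((hF.integrable_exp hm.le M s).const_mul (Real.exp (-(m * c)))).mono'
      (((hB.meas.comp (by fun_prop)).const_mul m).exp).aestronglyMeasurable (ae_of_all _ fun g => ?_)
    rw [Real.norm_eq_abs, abs_of_pos (Real.exp_pos _), ← Real.exp_add]
    refine Real.exp_le_exp.2 ?_
    have h4 : 0 ≤ m * ((M + s * g) ^ 2 / (2 * D)) := by positivity
    simp only [G]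
    linarith
  set U := ∫ g, m * G (M + s * g) ∂gaussianReal 0 1
  have hJ : Real.exp U ≤ ∫ g, Real.exp (m * G (M + s * g)) ∂gaussianReal 0 1 := by
    have h := integral_mono (((integrable_const (1 - U)).add hGi).const_mul (Real.exp U)) hEi
      fun g => by
        have h1 := mul_le_mul_of_nonneg_left (Real.add_one_le_exp (m * G (M + s * g) - U))
          (Real.exp_pos U).le
        rw [← Real.exp_add, add_sub_cancel] at h1
        simp only [Pi.add_apply]
        linarith
    simp only [Pi.add_apply] at h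
    rw [integral_const_mul, integral_add (integrable_const _) hGi, integral_const, probReal_univ,
      one_smul] at h
    simpa [U] using h
  have hpos : 0 < ∫ g, Real.exp (m * G (M + s * g)) ∂gaussianReal 0 1 :=
    (Real.exp_pos _).trans_le hJ
  have hsa : 0 < Real.sqrt (1 - a) := Real.sqrt_pos.2 (by linarith)
  have hUG : U = m * ∫ g, G (M + s * g) ∂gaussianReal 0 1 := integral_const_mul _ _
  have hlog : U ≤ Real.log (∫ g, Real.exp (m * G (M + s * g)) ∂gaussianReal 0 1) :=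
    (Real.le_log_iff_exp_le hpos).2 hJ
  rw [layer, e2, Real.log_mul (Real.exp_pos _).ne' (mul_pos (div_pos (Real.exp_pos _) hsa) hpos).ne',
    Real.log_exp, Real.log_mul (div_pos (Real.exp_pos _) hsa).ne' hpos.ne',
    Real.log_div (Real.exp_pos _).ne' hsa.ne', Real.log_exp, Real.log_sqrt (by linarith),
    show Real.log (1 - a) = -Real.log (D / D₀) by rw [ha1, ← Real.log_inv, inv_div]]
  have e3 : x ^ 2 / (2 * D₀) + c + Real.log (D / D₀) / (2 * m) + ∫ g, G (M + s * g) ∂gaussianReal 0 1 =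
      1 / m * (m * x ^ 2 / (2 * D) + m * c +
        (b ^ 2 / (2 * (1 - a)) - -Real.log (D / D₀) / 2 + U)) := by
    rw [hUG, ha1]
    simp only [b]
    field_simp
    linear_combination (-(x ^ 2 * m ^ 2)) * hsd + x ^ 2 * hD0d
  refine (le_of_eq e3).trans (mul_le_mul_of_nonneg_left ?_ (by positivity))
  linarith

/-- The recursion above a quadratic terminal function. -/
lemma level_ge_quad : ∀ {r : ℕ} {m : Fin r → ℝ}, (∀ i, 0 < m i) → ∀ {ρ : Fin (r + 1) → ℝ},
    Monotone ρ → ∀ {D : Fin (r + 1) → ℝ}, (∀ p, 1 ≤ D p) →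
    (∀ i : Fin r, D i.castSucc = D i.succ - m i * (ρ i.succ - ρ i.castSucc)) →
    ∀ {S : ℝ}, (∀ p, D p ≤ 1 + S) → ∀ {A : ℝ} {ψ : ℝ → ℝ}, Grow A ψ →
    ∀ {C : ℝ} {h : ℝ → ℝ}, Quad C h → ∀ {c : ℝ},
    (∀ y, y ^ 2 / (2 * D (Fin.last r)) + c + h y ≤ ψ y) →
    ∃ a v, 0 ≤ a ∧ a ≤ D (Fin.last r) / D 0 ∧ 0 ≤ v ∧
      v ≤ (1 + S) ^ 3 * (ρ (Fin.last r) - ρ 0) ∧
      ∀ x, x ^ 2 / (2 * D 0) + c + (∑ i : Fin r, Real.log (D i.succ / D i.castSucc) / (2 * m i)) +
        ∫ g, h (a * x + Real.sqrt v * g) ∂gaussianReal 0 1 ≤ level m ρ ψ 0 x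
  | 0, m, _, ρ, _, D, hD, _, S, _, A, ψ, _, C, h, _, c, hle => by
    refine ⟨1, 0, zero_le_one, ?_, le_rfl, ?_, fun x => ?_⟩
    · rw [show Fin.last 0 = (0 : Fin 1) from rfl, div_self (by linarith [hD 0] : (D 0) ≠ 0)]
    · simp
    · simpa [level, show Fin.last 0 = (0 : Fin 1) from rfl] using hle x
  | r + 1, m, hm, ρ, hρ, D, hD, hrec, S, hS, A, ψ, hψ, C, h, hh, c, hle => by
    obtain ⟨a, v, ha0, ha, hv0, hv, hb⟩ := level_ge_quad (m := Fin.tail m) (fun i => hm _)
      (ρ := Fin.tail ρ) (fun i j hij => hρ (Fin.succ_le_succ_iff.2 hij)) (D := Fin.tail D)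
      (fun p => hD _) (fun i => by
        have := hrec i.succ
        simpa [Fin.tail, Fin.castSucc_succ] using this) (S := S) (fun p => hS _) hψ hh (c := c)
      (fun y => by simpa [Fin.tail, Fin.succ_last] using hle y)
    simp only [Fin.tail, Fin.succ_zero_eq_one, Fin.succ_last] at ha hv hb
    obtain ⟨A', hF⟩ := Grow.level (m := Fin.tail m) (fun i => hm _) (Fin.tail ρ) hψ
    set F := level (Fin.tail m) (Fin.tail ρ) ψ 0
    have h0 := hrec 0
    simp only [Fin.castSucc_zero, Fin.succ_zero_eq_one] at h0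
    set δ := ρ 1 - ρ 0
    have hδ : 0 ≤ δ := sub_nonneg.2 (hρ (Fin.zero_le _))
    have hD0 : 0 < D 1 - m 0 * δ := by rw [← h0]; linarith [hD 0]
    have hD00 : 0 < D 0 := by linarith [hD 0]
    have hD10 : 0 ≤ D 1 / D 0 := div_nonneg (by linarith [hD 1]) hD00.le
    have hrel : D 1 / D 0 ≤ 1 + S := by
      rw [div_le_iff₀ hD00]
      nlinarith [hS 1, hD 0, hD 1]
    refine ⟨a * (D 1 / D 0), v + a ^ 2 * (δ * (D 1 / D 0)), by positivity, ?_, by positivity, ?_,
      fun x => ?_⟩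
    · refine (mul_le_mul_of_nonneg_right ha hD10).trans_eq ?_
      have : D 1 ≠ 0 := by linarith [hD 1]
      field_simp
    · have ha2 : a ≤ 1 + S := ha.trans <| by
        rw [div_le_iff₀ (by linarith [hD 1] : (0 : ℝ) < D 1)]
        nlinarith [hS (Fin.last (r + 1)), hD 1, hD (Fin.last (r + 1))]
      have h1 : a ^ 2 * (D 1 / D 0) ≤ (1 + S) ^ 3 :=
        (mul_le_mul (pow_le_pow_left₀ ha0 ha2 2) hrel hD10 (by positivity)).trans_eq (by ring)
      have h2 := mul_le_mul_of_nonneg_left h1 hδ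
      nlinarith
    · show _ ≤ layer (m 0) δ F x
      refine le_trans ?_ (layer_ge_quad (c := c + ∑ i : Fin r,
        Real.log (D i.succ.succ / D i.castSucc.succ) / (2 * m i.succ)) (hm 0) hδ
        (by linarith) hF hD0 x)
      rw [← h0, Fin.sum_univ_succ]
      simp only [Fin.castSucc_zero, Fin.succ_zero_eq_one, Fin.castSucc_succ]
      set M := x * (D 1 / D 0)
      set s := Real.sqrt (δ * (D 1 / D 0))
      obtain ⟨hci, hce⟩ := hh.combine (a * M) (a * s) (Real.sqrt v)
      have e : ∀ g, a * (M + s * g) = a * M + a * s * g := fun g => by ring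
      have key : ∫ g, h (a * (D 1 / D 0) * x + Real.sqrt (v + a ^ 2 * (δ * (D 1 / D 0))) * g)
          ∂gaussianReal 0 1 ≤ ∫ g, (F (M + s * g) - (M + s * g) ^ 2 / (2 * D 1) -
            (c + ∑ i : Fin r, Real.log (D i.succ.succ / D i.castSucc.succ) / (2 * m i.succ)))
              ∂gaussianReal 0 1 := by
        have e2 : Real.sqrt ((a * s) ^ 2 + Real.sqrt v ^ 2) =
            Real.sqrt (v + a ^ 2 * (δ * (D 1 / D 0))) := by
          rw [mul_pow, Real.sq_sqrt hv0, Real.sq_sqrt (mul_nonneg hδ hD10), add_comm]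
        rw [e2] at hce
        rw [show a * (D 1 / D 0) * x = a * M by simp only [M]; ring, ← hce]
        refine integral_mono hci ?_ fun g => ?_
        · have hQ : Quad (|A'| + 1 + 1 / (2 * D 1) + |c + ∑ i : Fin r,
              Real.log (D i.succ.succ / D i.castSucc.succ) / (2 * m i.succ)|)
              fun y => F y - y ^ 2 / (2 * D 1) - (c + ∑ i : Fin r,
                Real.log (D i.succ.succ / D i.castSucc.succ) / (2 * m i.succ)) := by
            set c' := c + ∑ i : Fin r, Real.log (D i.succ.succ / D i.castSucc.succ) / (2 * m i.succ)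
            refine ⟨(hF.meas.sub (by fun_prop)).sub_const _, fun y => ?_⟩
            have hD1 : 0 < D 1 := by linarith [hD 1]
            have h1 := hF.le y
            have h2 := hF.nonneg y
            have h3 : |y| ≤ 1 + y ^ 2 := by nlinarith [abs_nonneg y, sq_abs y, sq_nonneg (|y| - 1)]
            have h4 : 0 ≤ y ^ 2 / (2 * D 1) := by positivity
            have h5 : y ^ 2 / (2 * D 1) ≤ 1 / (2 * D 1) * (1 + y ^ 2) := by
              rw [div_eq_mul_one_div (y ^ 2), mul_comm (y ^ 2)]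
              exact mul_le_mul_of_nonneg_left (by linarith) (by positivity)
            have h6 := mul_nonneg (add_nonneg (abs_nonneg A') (abs_nonneg c')) (sq_nonneg y)
            rw [abs_le]
            constructor <;> linarith [le_abs_self A', le_abs_self c', neg_abs_le c', neg_abs_le A']
          exact hQ.integrable M s
        · have := hb (M + s * g)
          simp only [e] at this
          linarith
      linarith

/-- The averaged recursion above a quadratic terminal function. -/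
lemma integral_level_ge_quad {r : ℕ} {m : Fin r → ℝ} (hm : ∀ i, 0 < m i) {ρ : Fin (r + 1) → ℝ}
    (hρ : Monotone ρ) (h0 : 0 ≤ ρ 0) {D : Fin (r + 1) → ℝ} (hD : ∀ p, 1 ≤ D p)
    (hrec : ∀ i : Fin r, D i.castSucc = D i.succ - m i * (ρ i.succ - ρ i.castSucc))
    {S : ℝ} (hS : ∀ p, D p ≤ 1 + S) {A : ℝ} {ψ : ℝ → ℝ} (hψ : Grow A ψ) {C : ℝ} {h : ℝ → ℝ}
    (hh : Quad C h) {c : ℝ} (hle : ∀ y, y ^ 2 / (2 * D (Fin.last r)) + c + h y ≤ ψ y) :
    ∃ w, 0 ≤ w ∧ w ≤ (1 + S) ^ 3 * ρ (Fin.last r) ∧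
      ρ 0 / (2 * D 0) + c + (∑ i : Fin r, Real.log (D i.succ / D i.castSucc) / (2 * m i)) +
        ∫ g, h (Real.sqrt w * g) ∂gaussianReal 0 1 ≤
      ∫ g, level m ρ ψ 0 (Real.sqrt (ρ 0) * g) ∂gaussianReal 0 1 := by
  obtain ⟨a, v, ha0, ha, hv0, hv, hb⟩ := level_ge_quad hm hρ hD hrec hS hψ hh hle
  obtain ⟨A', hF⟩ := Grow.level hm ρ hψ
  have hD0 : 0 < D 0 := by linarith [hD 0]
  refine ⟨a ^ 2 * ρ 0 + v, by positivity, ?_, ?_⟩
  · have hS1 : 1 ≤ 1 + S := (hD 0).trans (hS 0)
    have ha2 : a ≤ 1 + S := ha.trans <| by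
      rw [div_le_iff₀ hD0]
      nlinarith [hS (Fin.last r), hD 0]
    have h1 : a ^ 2 ≤ (1 + S) ^ 3 :=
      (pow_le_pow_left₀ ha0 ha2 2).trans (pow_le_pow_right₀ hS1 (by norm_num))
    nlinarith [mul_le_mul_of_nonneg_right h1 h0]
  obtain ⟨hci, hce⟩ := hh.combine 0 (a * Real.sqrt (ρ 0)) (Real.sqrt v)
  rw [mul_pow, Real.sq_sqrt h0, Real.sq_sqrt hv0] at hce
  simp only [zero_add] at hci hce
  rw [← hce]
  have hLi : Integrable (fun g => level m ρ ψ 0 (Real.sqrt (ρ 0) * g)) (gaussianReal 0 1) := by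
    refine ((hF.integrable_exp zero_le_one 0 (Real.sqrt (ρ 0)))).mono'
      (hF.meas.comp (by fun_prop)).aestronglyMeasurable (ae_of_all _ fun g => ?_)
    rw [Real.norm_eq_abs, abs_of_nonneg (hF.nonneg _), one_mul, zero_add]
    linarith [Real.add_one_le_exp (level m ρ ψ 0 (Real.sqrt (ρ 0) * g))]
  set K := c + ∑ i : Fin r, Real.log (D i.succ / D i.castSucc) / (2 * m i)
  have hi1 : Integrable (fun g : ℝ => ρ 0 / (2 * D 0) * g ^ 2 + K) (gaussianReal 0 1) :=
    (integrable_sq_gauss.const_mul _).add (integrable_const _)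
  have h2 : ∫ g : ℝ, g ^ 2 ∂gaussianReal 0 1 = 1 := by
    have := variance_id_gaussianReal (μ := 0) (v := 1)
    rw [variance_eq_integral aemeasurable_id] at this
    simpa using this
  have e : ρ 0 / (2 * D 0) + K = ∫ g, (ρ 0 / (2 * D 0) * g ^ 2 + K) ∂gaussianReal 0 1 := by
    rw [integral_add (integrable_sq_gauss.const_mul _) (integrable_const _), integral_const_mul, h2]
    simp
  rw [add_assoc (ρ 0 / (2 * D 0)) c, e, ← integral_add hi1 hci]
  refine integral_mono (hi1.add hci) hLi fun g => ?_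
  have := hb (Real.sqrt (ρ 0) * g)
  rw [mul_pow, Real.sq_sqrt h0, ← mul_assoc] at this
  simp only [Pi.add_apply]
  have e2 : ρ 0 * g ^ 2 / (2 * D 0) = ρ 0 / (2 * D 0) * g ^ 2 := by ring
  linarith

end Vale.Agent.P157.Parisi.Sphere.Site
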