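import Vale.Agent.P157.Parisi.Sphere.System
import Vale.Agent.P157.Parisi.Sphere.Site.Quad
import Vale.Agent.P157.Parisi.Site.Main

/-!
The grid spin against the Gaussian spin.
-/

noncomputable section

open MeasureTheory ProbabilityTheory Filter Topology Finset
open scoped BigOperators

namespace Vale.Agent.P157.Parisi.Sphere.Site

open Vale.Agent.P157.Parisi.Site

/-- The terminal function of a Gaussian spin of precision `D`. -/
def qtop (D y : ℝ) : ℝ := y ^ 2 / (2 * D) - Real.log D / 2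

/-- A lower bound for the truncated grid spins. -/
def low (S : ℝ) : ℝ := 2 * (gaussianReal 0 1).real (Set.Ico 0 1) * Real.exp (-S)

/-- The grid spin with `cosh` truncated. -/
def cutGrid (R m K : ℕ) (κ y : ℝ) : ℝ :=
  ∑ j ∈ Finset.range (R * m),
    cellW m j * (2 * cut K ((j : ℝ) / m * y) * Real.exp (((j : ℝ) / m) ^ 2 * κ))

lemma cellW_nonneg (m j : ℕ) : 0 ≤ cellW m j := measureReal_nonneg

lemma low_pos (S : ℝ) : 0 < low S := by
  have h : 0 < (gaussianReal 0 1).real (Set.Ico 0 1) := by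
    refine ENNReal.toReal_pos (fun h => ?_) (measure_ne_top _ _)
    have := gaussianReal_absolutelyContinuous' 0 (one_ne_zero : (1 : NNReal) ≠ 0) h
    simp [Real.volume_Ico] at this
  exact mul_pos (mul_pos two_pos h) (Real.exp_pos _)

lemma node_succ (m j : ℕ) : ((j + 1 : ℕ) : ℝ) / m = ((j : ℝ) + 1) / m := by push_cast; rfl

lemma sum_cellW (m : ℕ) : ∀ k : ℕ,
    ∑ j ∈ Finset.range k, cellW m j = (gaussianReal 0 1).real (Set.Ico 0 ((k : ℝ) / m))
  | 0 => by simp
  | k + 1 => by
    have h1 : (0 : ℝ) ≤ (k : ℝ) / m := by positivity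
    have h2 : (k : ℝ) / m ≤ ((k : ℝ) + 1) / m := by gcongr; linarith
    rw [Finset.sum_range_succ, sum_cellW m k, node_succ, ← Set.Ico_union_Ico_eq_Ico h1 h2,
      measureReal_union (Set.Ico_disjoint_Ico_same) measurableSet_Ico]
    rfl

lemma node_le {R m j : ℕ} (hj : j < R * m) : (j : ℝ) / m ≤ R := by
  have hm : (0 : ℝ) < m := by
    exact_mod_cast Nat.pos_of_ne_zero fun h => by simp [h] at hj
  rw [div_le_iff₀ hm]
  exact_mod_cast hj.le

lemma low_le_cutGrid {R m K : ℕ} (hR : 1 ≤ R) (hm : 0 < m) (hK : 0 < K) {S κ : ℝ} (hS : 0 ≤ S)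
    (hκ : -S ≤ κ) (y : ℝ) : low S ≤ cutGrid R m K κ y := by
  have hsub : Finset.range m ⊆ Finset.range (R * m) :=
    Finset.range_subset_range.2 (Nat.le_mul_of_pos_left m hR)
  refine le_trans ?_ (Finset.sum_le_sum_of_subset_of_nonneg hsub fun j _ _ => ?_)
  · have h := sum_cellW m m
    rw [div_self (by exact_mod_cast hm.ne')] at h
    rw [low, ← h, mul_comm 2, Finset.sum_mul, Finset.sum_mul]
    refine Finset.sum_le_sum fun j hj => ?_
    rw [mul_assoc]
    refine mul_le_mul_of_nonneg_left (mul_le_mul ?_ (Real.exp_le_exp.2 ?_) (Real.exp_pos _).le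
      (by have := one_le_cut hK ((j : ℝ) / m * y); linarith)) (cellW_nonneg m j)
    · have := one_le_cut hK ((j : ℝ) / m * y)
      linarith
    · have h1 : (j : ℝ) / m ≤ 1 := by
        rw [div_le_one (by exact_mod_cast hm)]
        exact_mod_cast (Finset.mem_range.1 hj).le
      have h0 : (0 : ℝ) ≤ (j : ℝ) / m := by positivity
      have h2 : ((j : ℝ) / m) ^ 2 ≤ 1 := pow_le_one₀ h0 h1
      nlinarith [sq_nonneg ((j : ℝ) / m)]
  · have := one_le_cut hK ((j : ℝ) / m * y)
    exact mul_nonneg (cellW_nonneg m j) (mul_nonneg (by linarith) (Real.exp_pos _).le)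

lemma cutGrid_le {R m K : ℕ} {S κ : ℝ} (hκ : κ ≤ S) (hS : 0 ≤ S) (y : ℝ) :
    cutGrid R m K κ y ≤ 2 * Real.cosh K * Real.exp ((R : ℝ) ^ 2 * S) := by
  have hW : ∑ j ∈ Finset.range (R * m), cellW m j ≤ 1 := by
    rw [sum_cellW]; exact measureReal_le_one
  refine (Finset.sum_le_sum (g := fun j => cellW m j *
    (2 * Real.cosh K * Real.exp ((R : ℝ) ^ 2 * S))) fun j hj => ?_).trans ?_
  · refine mul_le_mul_of_nonneg_left (mul_le_mul (mul_le_mul_of_nonneg_left (cut_le K _) two_pos.le)
      (Real.exp_le_exp.2 ?_) (Real.exp_pos _).le (by positivity)) (cellW_nonneg m j)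
    have h1 := node_le (Finset.mem_range.1 hj)
    have h0 : (0 : ℝ) ≤ (j : ℝ) / m := by positivity
    have h2 := pow_le_pow_left₀ h0 h1 2
    exact (mul_le_mul_of_nonneg_left hκ (sq_nonneg _)).trans (mul_le_mul_of_nonneg_right h2 hS)
  · rw [← Finset.sum_mul]
    exact mul_le_of_le_one_left (by positivity) hW

lemma continuous_cutGrid (R m K : ℕ) (κ : ℝ) : Continuous (cutGrid R m K κ) := by
  unfold cutGrid
  have := continuous_cut K
  fun_prop

lemma cosh_mul_exp_neg (β x y : ℝ) : Real.cosh (x * y) * Real.exp (-β * x ^ 2) =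
    Real.exp (-(2 * β) * x ^ 2 / 2 + y * x) / 2 + Real.exp (-(2 * β) * x ^ 2 / 2 + -y * x) / 2 := by
  rw [Real.cosh_eq, Real.exp_add, Real.exp_add]
  ring_nf

lemma integrable_exp_quad {β : ℝ} (hβ : 0 ≤ β) (y : ℝ) :
    Integrable (fun x : ℝ => Real.exp (-(2 * β) * x ^ 2 / 2 + y * x)) (gaussianReal 0 1) :=
  (integrable_exp_mul_gaussianReal y).mono' (by fun_prop) (ae_of_all _ fun x => by
    rw [Real.norm_eq_abs, abs_of_pos (Real.exp_pos _)]
    exact Real.exp_le_exp.2 (by nlinarith [mul_nonneg hβ (sq_nonneg x)]))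

lemma integrable_spin {β : ℝ} (hβ : 0 ≤ β) (y : ℝ) :
    Integrable (fun x : ℝ => 2 * (Real.cosh (x * y) * Real.exp (-β * x ^ 2))) (gaussianReal 0 1) := by
  simp only [cosh_mul_exp_neg]
  exact (((integrable_exp_quad hβ y).div_const 2).add
    ((integrable_exp_quad hβ (-y)).div_const 2)).const_mul 2

lemma exp_qtop_le {D : ℝ} (hD : 1 ≤ D) (y : ℝ) :
    Real.exp (qtop D y) ≤
      ∫ x in Set.Ici 0, 2 * (Real.cosh (x * y) * Real.exp (-((D - 1) / 2) * x ^ 2)) ∂gaussianReal 0 1 := by
  set β := (D - 1) / 2 with hβd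
  have hβ : 0 ≤ β := by positivity
  have he : ∀ y, ∫ x, Real.exp (-(2 * β) * x ^ 2 / 2 + y * x) ∂gaussianReal 0 1 =
      Real.exp (qtop D y) := fun y => by
    have h := integral_exp_quad (a := -(2 * β)) (by linarith) y (fun _ => (1 : ℝ))
    simp only [one_mul, integral_const, probReal_univ, one_smul, mul_one] at h
    rw [h, show 1 - -(2 * β) = D by rw [hβd]; ring, qtop, Real.exp_sub, ← Real.log_sqrt (by linarith),
      Real.exp_log (Real.sqrt_pos.2 (by linarith))]
  set h := fun x : ℝ => 2 * (Real.cosh (x * y) * Real.exp (-β * x ^ 2)) with hh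
  have hi : Integrable h (gaussianReal 0 1) := integrable_spin hβ y
  have hI : ∫ x, h x ∂gaussianReal 0 1 = 2 * Real.exp (qtop D y) := by
    simp only [hh, cosh_mul_exp_neg]
    rw [integral_const_mul, integral_add ((integrable_exp_quad hβ y).div_const 2)
      ((integrable_exp_quad hβ (-y)).div_const 2), integral_div, integral_div, he, he]
    simp only [qtop, neg_sq]
    ring
  have heven : ∫ x in Set.Iio 0, h x ∂gaussianReal 0 1 ≤ ∫ x in Set.Ici 0, h x ∂gaussianReal 0 1 := by
    have hm : Measurable fun x : ℝ => -x := measurable_neg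
    have e : ∫ x in Set.Iio 0, h x ∂gaussianReal 0 1 = ∫ x in Set.Ioi 0, h x ∂gaussianReal 0 1 := by
      have hneg : (gaussianReal 0 1).map (fun x => -x) = gaussianReal 0 1 := by
        rw [gaussianReal_map_neg, neg_zero]
      conv_rhs => rw [← hneg]
      rw [setIntegral_map measurableSet_Ioi (by rw [hneg]; exact hi.aestronglyMeasurable)
        hm.aemeasurable, show (fun x : ℝ => -x) ⁻¹' Set.Ioi 0 = Set.Iio 0 by ext x; simp]
      simp [hh]
    rw [e]
    refine setIntegral_mono_set hi.integrableOn (ae_of_all _ fun x => ?_)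
      (Set.Ioi_subset_Ici_self).eventuallyLE
    simp only [hh, Pi.zero_apply]
    positivity
  have hsplit := integral_add_compl (μ := gaussianReal 0 1) (measurableSet_Ici (a := (0 : ℝ))) hi
  rw [Set.compl_Ici, hI] at hsplit
  linarith

lemma cell_le {m : ℕ} (hm : 0 < m) {β : ℝ} (hβ : 0 ≤ β) (y : ℝ) : ∀ k : ℕ,
    ∫ x in Set.Ico 0 ((k : ℝ) / m), 2 * (Real.cosh (x * y) * Real.exp (-β * x ^ 2))
      ∂gaussianReal 0 1 ≤
    Real.exp (|y| / m) * ∑ j ∈ Finset.range k,
      cellW m j * (2 * Real.cosh ((j : ℝ) / m * y) * Real.exp (((j : ℝ) / m) ^ 2 * (-β)))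
  | 0 => by simp
  | k + 1 => by
    have hm' : (0 : ℝ) < m := by exact_mod_cast hm
    have h1 : (0 : ℝ) ≤ (k : ℝ) / m := by positivity
    have h2 : (k : ℝ) / m ≤ ((k : ℝ) + 1) / m := by gcongr; linarith
    have hi := integrable_spin hβ y
    rw [node_succ, ← Set.Ico_union_Ico_eq_Ico h1 h2, setIntegral_union Set.Ico_disjoint_Ico_same
      measurableSet_Ico hi.integrableOn hi.integrableOn, Finset.sum_range_succ, mul_add]
    refine add_le_add (cell_le hm hβ y k) ?_
    refine (setIntegral_mono_on hi.integrableOn (g := fun _ => Real.exp (|y| / m) *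
      (2 * Real.cosh ((k : ℝ) / m * y) * Real.exp (((k : ℝ) / m) ^ 2 * (-β))))
      (integrable_const _).integrableOn measurableSet_Ico fun x hx => ?_).trans_eq ?_
    · obtain ⟨ha, hb⟩ := hx
      have hd : |x * y| ≤ (k : ℝ) / m * |y| + |y| / m := by
        rw [abs_mul, abs_of_nonneg (h1.trans ha)]
        refine (mul_le_mul_of_nonneg_right hb.le (abs_nonneg y)).trans_eq ?_
        field_simp
      have hc : Real.cosh (x * y) ≤ Real.cosh ((k : ℝ) / m * y) * Real.exp (|y| / m) := by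
        rw [← Real.cosh_abs (x * y), ← Real.cosh_abs ((k : ℝ) / m * y), abs_mul ((k : ℝ) / m),
          abs_of_nonneg h1]
        refine (Real.cosh_le_cosh.2 ?_).trans (cosh_add_le _ (by positivity))
        rw [abs_abs, abs_of_nonneg (by positivity : 0 ≤ (k : ℝ) / m * |y| + |y| / m)]
        exact hd
      have he : Real.exp (-β * x ^ 2) ≤ Real.exp (((k : ℝ) / m) ^ 2 * (-β)) :=
        Real.exp_le_exp.2 (by nlinarith [mul_le_mul_of_nonneg_left (pow_le_pow_left₀ h1 ha 2) hβ])
      calc 2 * (Real.cosh (x * y) * Real.exp (-β * x ^ 2)) ≤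
          2 * ((Real.cosh ((k : ℝ) / m * y) * Real.exp (|y| / m)) *
            Real.exp (((k : ℝ) / m) ^ 2 * (-β))) := by gcongr
        _ = _ := by ring
    · rw [setIntegral_const, smul_eq_mul, cellW]
      ring

lemma tail_le {R : ℝ} {β : ℝ} (hβ : 0 ≤ β) (y : ℝ) :
    ∫ x in Set.Ici R, 2 * (Real.cosh (x * y) * Real.exp (-β * x ^ 2)) ∂gaussianReal 0 1 ≤
      2 * Real.exp (-R) * Real.exp ((|y| + 1) ^ 2 / 2) := by
  have hmgf : ∀ c : ℝ, ∫ g, Real.exp (c * g) ∂(gaussianReal 0 1) = Real.exp (c ^ 2 / 2) := fun c => by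
    have h := congrFun (mgf_id_gaussianReal (μ := (0 : ℝ)) (v := (1 : NNReal))) c
    simpa [mgf] using h
  set u := fun x : ℝ => Real.exp (-R) * (Real.exp ((y + 1) * x) + Real.exp ((-y + 1) * x))
  have hu : Integrable u (gaussianReal 0 1) :=
    ((integrable_exp_mul_gaussianReal _).add (integrable_exp_mul_gaussianReal _)).const_mul _
  refine (setIntegral_mono_on (integrable_spin hβ y).integrableOn hu.integrableOn measurableSet_Ici
    fun x hx => ?_).trans ((setIntegral_le_integral hu (ae_of_all _ fun x => by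
      simp only [u, Pi.zero_apply]; positivity)).trans ?_)
  · have h1 : Real.exp (-β * x ^ 2) ≤ 1 := Real.exp_le_one_iff.2 (by nlinarith [sq_nonneg x])
    have h2 : 1 ≤ Real.exp (x - R) := Real.one_le_exp (sub_nonneg.2 hx)
    have e : u x = (Real.exp (x * y) + Real.exp (-(x * y))) * Real.exp (x - R) := by
      simp only [u, add_mul, mul_add, ← Real.exp_add]
      ring_nf
    rw [e, Real.cosh_eq, show 2 * ((Real.exp (x * y) + Real.exp (-(x * y))) / 2 * Real.exp (-β * x ^ 2)) =
      (Real.exp (x * y) + Real.exp (-(x * y))) * Real.exp (-β * x ^ 2) by ring]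
    exact mul_le_mul_of_nonneg_left (h1.trans h2) (by positivity)
  · simp only [u]
    rw [integral_const_mul, integral_add (integrable_exp_mul_gaussianReal _)
      (integrable_exp_mul_gaussianReal _), hmgf, hmgf]
    have hb : ∀ z : ℝ, |z| = |y| → Real.exp ((z + 1) ^ 2 / 2) ≤ Real.exp ((|y| + 1) ^ 2 / 2) :=
      fun z hz => Real.exp_le_exp.2 (by
        rw [← hz]
        have : z ^ 2 = |z| ^ 2 := (sq_abs z).symm
        nlinarith [le_abs_self z, abs_nonneg z])
    have h1 := hb y rfl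
    have h2 := hb (-y) (abs_neg y)
    have := mul_le_mul_of_nonneg_left (add_le_add h1 h2) (Real.exp_pos (-R)).le
    linarith

/-- The grid spin is close to the Gaussian spin. -/
lemma qtop_sub_log_le {R m K : ℕ} (hR : 1 ≤ R) (hm : 0 < m) (hK : 0 < K) {S D : ℝ} (hD : 1 ≤ D)
    (hDS : D ≤ 1 + S) {L : ℝ} (hL : 0 < L) (y : ℝ) :
    qtop D y - Real.log (gridSum R m y (-((D - 1) / 2))) ≤
      |y| / m + 2 * Real.exp (-(R : ℝ)) * Real.exp ((L + 1) ^ 2 / 2) / low S +
        (y ^ 2 / 2 + |Real.log (low S)|) * (y ^ 2 / L ^ 2) := by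
  set β := (D - 1) / 2
  have hβ : 0 ≤ β := by positivity
  have hS : 0 ≤ S := by linarith
  set Φ := gridSum R m y (-β)
  have hlow : low S ≤ Φ := by
    refine (low_le_cutGrid (κ := -β) hR hm hK hS (by simp only [β]; linarith) y).trans ?_
    exact Finset.sum_le_sum fun j _ => mul_le_mul_of_nonneg_left (mul_le_mul_of_nonneg_right
      (mul_le_mul_of_nonneg_left (cut_le_cosh K _) two_pos.le) (Real.exp_pos _).le) (cellW_nonneg m j)
  have hΦ := (low_pos S).trans_le hlow
  set t := 2 * Real.exp (-(R : ℝ)) * Real.exp ((|y| + 1) ^ 2 / 2)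
  have hRm : ((R * m : ℕ) : ℝ) / m = R := by push_cast; field_simp
  have hmain : Real.exp (qtop D y) ≤ Real.exp (|y| / m) * Φ + t := by
    refine (exp_qtop_le hD y).trans ?_
    rw [show (D - 1) / 2 = β from rfl]
    have hi := integrable_spin hβ y
    rw [← Set.Ico_union_Ici_eq_Ici (show (0 : ℝ) ≤ R by positivity),
      setIntegral_union (show Disjoint (Set.Ico (0 : ℝ) (R : ℝ)) (Set.Ici (R : ℝ)) from
        Set.disjoint_left.2 fun x hx hx' => absurd hx.2 (not_lt.2 hx'))
        measurableSet_Ici hi.integrableOn hi.integrableOn]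
    refine add_le_add ?_ (tail_le hβ y)
    have h := cell_le hm hβ y (R * m)
    rwa [hRm] at h
  set p := 2 * Real.exp (-(R : ℝ)) * Real.exp ((L + 1) ^ 2 / 2) / low S
  have hp : 0 ≤ p := by have := low_pos S; positivity
  have hq : 0 ≤ (y ^ 2 / 2 + |Real.log (low S)|) * (y ^ 2 / L ^ 2) := by positivity
  have ha : 0 ≤ |y| / m := by positivity
  rcases le_total |y| L with hy | hy
  · have hE : 0 < Real.exp (|y| / m) * Φ := mul_pos (Real.exp_pos _) hΦ
    have h1 : qtop D y ≤ |y| / m + Real.log Φ + t / (Real.exp (|y| / m) * Φ) := by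
      have h := Real.log_le_log (Real.exp_pos _) hmain
      rw [Real.log_exp, show Real.exp (|y| / m) * Φ + t =
        Real.exp (|y| / m) * Φ * (1 + t / (Real.exp (|y| / m) * Φ)) by field_simp,
        Real.log_mul hE.ne' (by positivity), Real.log_mul (Real.exp_pos _).ne' hΦ.ne',
        Real.log_exp] at h
      have := Real.log_le_sub_one_of_pos (show 0 < 1 + t / (Real.exp (|y| / m) * Φ) by positivity)
      linarith
    have h2 : t / (Real.exp (|y| / m) * Φ) ≤ p := by
      refine div_le_div₀ (by positivity) ?_ (low_pos S)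
        (hlow.trans (le_mul_of_one_le_left hΦ.le (Real.one_le_exp ha)))
      simp only [t]
      gcongr
    linarith
  · have h1 : qtop D y ≤ y ^ 2 / 2 := by
      have : y ^ 2 / (2 * D) ≤ y ^ 2 / 2 := by gcongr; linarith
      have := Real.log_nonneg hD
      rw [qtop]; linarith
    have h2 : -|Real.log (low S)| ≤ Real.log Φ :=
      (neg_abs_le _).trans (Real.log_le_log (low_pos S) hlow)
    have h3 : (1 : ℝ) ≤ y ^ 2 / L ^ 2 := by
      rw [one_le_div (by positivity), ← sq_abs y]
      exact pow_le_pow_left₀ hL.le hy 2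
    have h4 := mul_le_mul_of_nonneg_left h3
      (show 0 ≤ y ^ 2 / 2 + |Real.log (low S)| by positivity)
    linarith

lemma spread_cosh_mul {δ e : ℝ} (hδ : 0 ≤ δ) (he : 0 ≤ e) (x : ℝ) :
    spread δ (fun u => Real.cosh (e * u)) x = Real.exp (e ^ 2 * δ / 2) * Real.cosh (e * x) := by
  have h := spread_cosh (mul_nonneg (sq_nonneg e) hδ) (e * x)
  rw [← h, spread, spread, Real.sqrt_mul (sq_nonneg e), Real.sqrt_sq he]
  refine integral_congr_ae (ae_of_all _ fun g => ?_)
  ring_nf

/-- The mean gap of the truncation at two Gaussian scales. -/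
def gapTwo (c : ℝ) (K : ℕ) : ℝ :=
  ∫ p : ℝ × ℝ, gapBound K (c * (|p.1| + |p.2|)) ∂(gaussianReal 0 1).prod (gaussianReal 0 1)

lemma integrable_gapTwo {c : ℝ} (hc : 0 ≤ c) (K : ℕ) :
    Integrable (fun p : ℝ × ℝ => gapBound K (c * (|p.1| + |p.2|)))
      ((gaussianReal 0 1).prod (gaussianReal 0 1)) := by
  refine ((integrable_exp_abs c).mul_prod (integrable_exp_abs c)).mono'
    ((measurable_gapBound K).comp (by fun_prop)).aestronglyMeasurable (ae_of_all _ fun p => ?_)
  rw [Real.norm_eq_abs, abs_of_nonneg (gapBound_nonneg (by positivity)), ← Real.exp_add, ← mul_add]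
  refine (gapBound_le_cosh _ _).trans ((cosh_le_exp_abs _).trans ?_)
  rw [abs_of_nonneg (by positivity : 0 ≤ c * (|p.1| + |p.2|))]

lemma tendsto_gapTwo {c : ℝ} (hc : 0 ≤ c) : Tendsto (gapTwo c) atTop (𝓝 0) := by
  have h := tendsto_integral_of_dominated_convergence
    (μ := (gaussianReal 0 1).prod (gaussianReal 0 1))
    (F := fun K (p : ℝ × ℝ) => gapBound K (c * (|p.1| + |p.2|))) (f := fun _ => (0 : ℝ))
    (fun p => Real.exp (c * |p.1|) * Real.exp (c * |p.2|))
    (fun K => (integrable_gapTwo hc K).aestronglyMeasurable)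
    ((integrable_exp_abs c).mul_prod (integrable_exp_abs c))
    (fun K => ae_of_all _ fun p => by
      rw [Real.norm_eq_abs, abs_of_nonneg (gapBound_nonneg (by positivity)), ← Real.exp_add, ← mul_add]
      refine (gapBound_le_cosh _ _).trans ((cosh_le_exp_abs _).trans ?_)
      rw [abs_of_nonneg (by positivity : 0 ≤ c * (|p.1| + |p.2|))])
    (ae_of_all _ fun p => tendsto_gapBound (by positivity))
  simp only [integral_zero] at h
  exact h

lemma measurable_spread {φ : ℝ → ℝ} (hφ : Measurable φ) (δ : ℝ) : Measurable (spread δ φ) :=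
  ((hφ.comp (show Measurable fun p : ℝ × ℝ => p.1 + Real.sqrt δ * p.2 by fun_prop)).stronglyMeasurable
    |>.integral_prod_right' (ν := gaussianReal 0 1)).measurable

/-- The logarithm of the averaged truncated grid spin, compared with the Gaussian spin. -/
def hFun (R m K : ℕ) (κ δ D y : ℝ) : ℝ := Real.log (spread δ (cutGrid R m K κ) y) - qtop D y

lemma spread_cutGrid_mem {R m K : ℕ} (hR : 1 ≤ R) (hm : 0 < m) (hK : 0 < K) {S κ : ℝ} (hS : 0 ≤ S)
    (hκ : |κ| ≤ S) (δ y : ℝ) : low S ≤ spread δ (cutGrid R m K κ) y ∧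
      spread δ (cutGrid R m K κ) y ≤ 2 * Real.cosh K * Real.exp ((R : ℝ) ^ 2 * S) :=
  spread_mem (continuous_cutGrid R m K κ).measurable (fun u =>
    ⟨low_le_cutGrid hR hm hK hS (abs_le.1 hκ).1 u, cutGrid_le (abs_le.1 hκ).2 hS u⟩) δ y

lemma quad_hFun {R m K : ℕ} (hR : 1 ≤ R) (hm : 0 < m) (hK : 0 < K) {S κ : ℝ} (hS : 0 ≤ S)
    (hκ : |κ| ≤ S) (δ : ℝ) {D : ℝ} (hD : 1 ≤ D) :
    Quad (|Real.log (low S)| + |Real.log (2 * Real.cosh K * Real.exp ((R : ℝ) ^ 2 * S))| +
      |Real.log D| + 1) (hFun R m K κ δ D) := by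
  refine ⟨(measurable_spread (continuous_cutGrid R m K κ).measurable δ).log.sub
    (by unfold qtop; fun_prop), fun y => ?_⟩
  obtain ⟨h1, h2⟩ := spread_cutGrid_mem hR hm hK hS hκ δ y
  have a1 := Real.log_le_log (low_pos S) h1
  have a2 := Real.log_le_log ((low_pos S).trans_le h1) h2
  have a3 : y ^ 2 / (2 * D) ≤ y ^ 2 := div_le_self (sq_nonneg y) (by linarith)
  have a4 : 0 ≤ y ^ 2 / (2 * D) := by positivity
  set X := |Real.log (low S)| + |Real.log (2 * Real.cosh K * Real.exp ((R : ℝ) ^ 2 * S))| + |Real.log D|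
  have a5 : 0 ≤ X * y ^ 2 := by positivity
  have a6 := sq_nonneg y
  rw [abs_le]
  simp only [hFun, qtop]
  constructor <;> linarith [le_abs_self (Real.log (low S)), neg_abs_le (Real.log (low S)),
    le_abs_self (Real.log (2 * Real.cosh K * Real.exp ((R : ℝ) ^ 2 * S))),
    neg_abs_le (Real.log (2 * Real.cosh K * Real.exp ((R : ℝ) ^ 2 * S))),
    le_abs_self (Real.log D), neg_abs_le (Real.log D), abs_nonneg (Real.log (low S)),
    abs_nonneg (Real.log (2 * Real.cosh K * Real.exp ((R : ℝ) ^ 2 * S))), abs_nonneg (Real.log D)]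

/-- The error of the grid and of the truncation. -/
def gridErr (V S L : ℝ) (R m K : ℕ) : ℝ :=
  Real.sqrt V / m * (∫ g, |g| ∂gaussianReal 0 1) +
    2 * Real.exp (-(R : ℝ)) * Real.exp ((L + 1) ^ 2 / 2) / low S +
    (V ^ 2 / 2 * (∫ g : ℝ, g ^ 4 ∂gaussianReal 0 1) +
      V * |Real.log (low S)| * ∫ g : ℝ, g ^ 2 ∂gaussianReal 0 1) / L ^ 2 +
    2 * Real.exp ((R : ℝ) ^ 2 * S) * gapTwo ((R : ℝ) * Real.sqrt V) K / low S

lemma integral_hFun_ge {R m K : ℕ} (hR : 1 ≤ R) (hm : 0 < m) (hK : 0 < K) {S V L κ δ D w : ℝ}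
    (hL : 0 < L) (hκ : |κ| ≤ S) (hδ : 0 ≤ δ) (hδV : δ ≤ V) (hw : 0 ≤ w) (hwV : w ≤ V)
    (hD : 1 ≤ D) (hDS : D ≤ 1 + S) (hrel : κ + δ / 2 = -((D - 1) / 2)) :
    -gridErr V S L R m K ≤ ∫ g, hFun R m K κ δ D (Real.sqrt w * g) ∂gaussianReal 0 1 := by
  have hS : 0 ≤ S := (abs_nonneg κ).trans hκ
  have hV : 0 ≤ V := hw.trans hwV
  set c := (R : ℝ) * Real.sqrt V
  set C := 2 * Real.exp ((R : ℝ) ^ 2 * S) / low S
  have hC : 0 ≤ C := by have := low_pos S; positivity
  have hdiff : ∀ g g' : ℝ, gridSum R m (Real.sqrt w * g + Real.sqrt δ * g') κ -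
      cutGrid R m K κ (Real.sqrt w * g + Real.sqrt δ * g') ≤
      2 * Real.exp ((R : ℝ) ^ 2 * S) * gapBound K (c * (|g| + |g'|)) := by
    intro g g'
    set u := Real.sqrt w * g + Real.sqrt δ * g'
    have hg0 : 0 ≤ gapBound K (c * (|g| + |g'|)) := gapBound_nonneg (by positivity)
    simp only [gridSum, cutGrid, ← Finset.sum_sub_distrib]
    refine (Finset.sum_le_sum (g := fun j => cellW m j *
      (2 * Real.exp ((R : ℝ) ^ 2 * S) * gapBound K (c * (|g| + |g'|)))) fun j hj => ?_).trans ?_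
    · rw [← mul_sub, ← sub_mul, ← mul_sub]
      refine mul_le_mul_of_nonneg_left ?_ (cellW_nonneg m j)
      have h1 := node_le (Finset.mem_range.1 hj)
      have h0 : (0 : ℝ) ≤ (j : ℝ) / m := by positivity
      have hu : |(j : ℝ) / m * u| ≤ c * (|g| + |g'|) := by
        rw [abs_mul, abs_of_nonneg h0]
        refine (mul_le_mul h1 (?_ : |u| ≤ Real.sqrt V * (|g| + |g'|)) (abs_nonneg _)
          (Nat.cast_nonneg R)).trans_eq (mul_assoc _ _ _).symm
        refine (abs_add_le _ _).trans ?_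
        rw [abs_mul, abs_mul, abs_of_nonneg (Real.sqrt_nonneg _), abs_of_nonneg (Real.sqrt_nonneg _),
          mul_add]
        gcongr
      have hgap := cosh_sub_cut_le hK hu
      have he : Real.exp (((j : ℝ) / m) ^ 2 * κ) ≤ Real.exp ((R : ℝ) ^ 2 * S) :=
        Real.exp_le_exp.2 ((mul_le_mul_of_nonneg_left (abs_le.1 hκ).2 (sq_nonneg _)).trans
          (mul_le_mul_of_nonneg_right (pow_le_pow_left₀ h0 h1 2) hS))
      have hpos : 0 ≤ Real.cosh ((j : ℝ) / m * u) - cut K ((j : ℝ) / m * u) :=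
        sub_nonneg.2 (cut_le_cosh K _)
      calc 2 * (Real.cosh ((j : ℝ) / m * u) - cut K ((j : ℝ) / m * u)) * Real.exp (((j : ℝ) / m) ^ 2 * κ)
          ≤ 2 * gapBound K (c * (|g| + |g'|)) * Real.exp ((R : ℝ) ^ 2 * S) := by gcongr
        _ = _ := by ring
    · rw [← Finset.sum_mul, sum_cellW]
      exact mul_le_of_le_one_left (by positivity) measureReal_le_one
  have hgi := integrable_gapTwo (c := c) (by positivity) K
  set U := fun g : ℝ => Real.sqrt V / m * |g| +
    2 * Real.exp (-(R : ℝ)) * Real.exp ((L + 1) ^ 2 / 2) / low S +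
    (V ^ 2 / 2 / L ^ 2 * g ^ 4 + V * |Real.log (low S)| / L ^ 2 * g ^ 2) +
    C * ∫ g', gapBound K (c * (|g| + |g'|)) ∂gaussianReal 0 1
  have hpt : ∀ g, -U g ≤ hFun R m K κ δ D (Real.sqrt w * g) := by
    intro g
    set y := Real.sqrt w * g
    obtain ⟨h1, -⟩ := spread_cutGrid_mem hR hm hK hS hκ δ y
    set Ψ := spread δ (cutGrid R m K κ) y
    set Φ := gridSum R m y (-((D - 1) / 2))
    have hi1 : Integrable (fun g' => gridSum R m (y + Real.sqrt δ * g') κ) (gaussianReal 0 1) := by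
      unfold gridSum
      refine integrable_finsetSum _ fun j _ =>
        (((?_ : Integrable (fun g' : ℝ => Real.cosh ((j : ℝ) / m * (y + Real.sqrt δ * g')))
          (gaussianReal 0 1)).const_mul 2).mul_const _).const_mul _
      exact (integrable_cosh_mul ((j : ℝ) / m * Real.sqrt δ) ((j : ℝ) / m * y)).congr
        (ae_of_all _ fun g' => by ring_nf)
    have hi2 : Integrable (fun g' => cutGrid R m K κ (y + Real.sqrt δ * g')) (gaussianReal 0 1) :=
      Integrable.of_bound ((continuous_cutGrid R m K κ).measurable.comp (by fun_prop)).aestronglyMeasurable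
        (2 * Real.cosh K * Real.exp ((R : ℝ) ^ 2 * S)) (ae_of_all _ fun g' => by
          rw [Real.norm_eq_abs, abs_of_nonneg ((low_pos S).le.trans
            (low_le_cutGrid hR hm hK hS (abs_le.1 hκ).1 _))]
          exact cutGrid_le (abs_le.1 hκ).2 hS _)
    have hsecond : Integrable (fun g' => gapBound K (c * (|g| + |g'|))) (gaussianReal 0 1) := by
      refine ((integrable_exp_abs c).const_mul (Real.exp (c * |g|))).mono'
        ((measurable_gapBound K).comp (by fun_prop)).aestronglyMeasurable (ae_of_all _ fun g' => ?_)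
      rw [Real.norm_eq_abs, abs_of_nonneg (gapBound_nonneg (by positivity)), ← Real.exp_add, ← mul_add]
      refine (gapBound_le_cosh _ _).trans ((cosh_le_exp_abs _).trans ?_)
      rw [abs_of_nonneg (by positivity : 0 ≤ c * (|g| + |g'|))]
    have eΦ : ∫ g', gridSum R m (y + Real.sqrt δ * g') κ ∂gaussianReal 0 1 = Φ := by
      simp only [gridSum]
      rw [integral_finsetSum _ fun (j : ℕ) _ =>
        ((((integrable_cosh_mul ((j : ℝ) / m * Real.sqrt δ) ((j : ℝ) / m * y)).congr
          (ae_of_all _ fun g' => by ring_nf) : Integrable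
            (fun g' : ℝ => Real.cosh ((j : ℝ) / m * (y + Real.sqrt δ * g'))) (gaussianReal 0 1)).const_mul
              2).mul_const _).const_mul _]
      refine Finset.sum_congr rfl fun j _ => ?_
      rw [integral_const_mul, integral_mul_const, integral_const_mul]
      have hs := spread_cosh_mul hδ (show (0 : ℝ) ≤ (j : ℝ) / m by positivity) y
      rw [spread] at hs
      rw [hs, ← hrel, mul_add, Real.exp_add]
      ring_nf
    have hd : Φ - Ψ ≤ 2 * Real.exp ((R : ℝ) ^ 2 * S) * ∫ g', gapBound K (c * (|g| + |g'|)) ∂gaussianReal 0 1 := by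
      rw [← eΦ, show Ψ = ∫ g', cutGrid R m K κ (y + Real.sqrt δ * g') ∂gaussianReal 0 1 from rfl,
        ← integral_sub hi1 hi2, ← integral_const_mul]
      exact integral_mono (hi1.sub hi2) (hsecond.const_mul _) fun g' => hdiff g g'
    have hΨ := (low_pos S).trans_le h1
    have hΦ : Ψ ≤ Φ := by
      rw [← eΦ]
      exact integral_mono hi2 hi1 fun g' => Finset.sum_le_sum fun j _ => mul_le_mul_of_nonneg_left
        (mul_le_mul_of_nonneg_right (mul_le_mul_of_nonneg_left (cut_le_cosh K _) two_pos.le)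
          (Real.exp_pos _).le) (cellW_nonneg m j)
    have hlog : Real.log Φ - Real.log Ψ ≤ C * ∫ g', gapBound K (c * (|g| + |g'|)) ∂gaussianReal 0 1 := by
      rw [← Real.log_div (hΨ.trans_le hΦ).ne' hΨ.ne']
      refine (Real.log_le_sub_one_of_pos (div_pos (hΨ.trans_le hΦ) hΨ)).trans ?_
      rw [div_sub_one hΨ.ne', div_le_iff₀ hΨ]
      refine hd.trans ?_
      have hI : 0 ≤ ∫ g', gapBound K (c * (|g| + |g'|)) ∂gaussianReal 0 1 :=
        integral_nonneg fun g' => gapBound_nonneg (by positivity)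
      refine le_trans (le_of_eq ?_) (mul_le_mul_of_nonneg_left h1 (mul_nonneg hC hI))
      have := (low_pos S).ne'
      simp only [C]
      field_simp
    have hq := qtop_sub_log_le (R := R) (m := m) (K := K) hR hm hK hD hDS hL y
    have hy : |y| / m ≤ Real.sqrt V / m * |g| := by
      simp only [y, abs_mul, abs_of_nonneg (Real.sqrt_nonneg w), div_mul_eq_mul_div]
      gcongr
    have hy2 : y ^ 2 ≤ V * g ^ 2 := by
      simp only [y, mul_pow, Real.sq_sqrt hw]
      gcongr
    have hpoly : (y ^ 2 / 2 + |Real.log (low S)|) * (y ^ 2 / L ^ 2) ≤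
        V ^ 2 / 2 / L ^ 2 * g ^ 4 + V * |Real.log (low S)| / L ^ 2 * g ^ 2 := by
      refine (mul_le_mul (add_le_add (div_le_div_of_nonneg_right hy2 two_pos.le) le_rfl)
        (div_le_div_of_nonneg_right hy2 (sq_nonneg L)) (by positivity) (by positivity)).trans_eq ?_
      ring
    simp only [hFun, U]
    linarith
  have i4 : Integrable (fun g : ℝ => g ^ 4) (gaussianReal 0 1) := by
    have := (memLp_id_gaussianReal (μ := 0) (v := 1) 4).integrable_norm_pow (p := 4) (by norm_num)
    refine this.congr (ae_of_all _ fun x => ?_)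
    simp [Even.pow_abs (by decide : Even 4)]
  have i1 : Integrable (fun g : ℝ => Real.sqrt V / m * |g| +
      2 * Real.exp (-(R : ℝ)) * Real.exp ((L + 1) ^ 2 / 2) / low S) (gaussianReal 0 1) :=
    (integrable_abs_id.const_mul _).add (integrable_const _)
  have i2 : Integrable (fun g : ℝ => V ^ 2 / 2 / L ^ 2 * g ^ 4 +
      V * |Real.log (low S)| / L ^ 2 * g ^ 2) (gaussianReal 0 1) :=
    (i4.const_mul _).add (integrable_sq_gauss.const_mul _)
  have i3 : Integrable (fun g => C * ∫ g', gapBound K (c * (|g| + |g'|)) ∂gaussianReal 0 1)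
      (gaussianReal 0 1) := hgi.integral_prod_left.const_mul C
  have i12 : Integrable (fun g : ℝ => Real.sqrt V / m * |g| +
      2 * Real.exp (-(R : ℝ)) * Real.exp ((L + 1) ^ 2 / 2) / low S +
      (V ^ 2 / 2 / L ^ 2 * g ^ 4 + V * |Real.log (low S)| / L ^ 2 * g ^ 2)) (gaussianReal 0 1) :=
    i1.add i2
  have hUi : Integrable U (gaussianReal 0 1) := i12.add i3
  have hhi : Integrable (fun g => hFun R m K κ δ D (Real.sqrt w * g)) (gaussianReal 0 1) := by
    simpa using (quad_hFun hR hm hK hS hκ δ hD).integrable 0 (Real.sqrt w)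
  refine le_trans (le_of_eq ?_) (integral_mono hUi.neg hhi hpt)
  show _ = ∫ g, -U g ∂gaussianReal 0 1
  simp only [integral_neg, U]
  rw [integral_add i12 i3, integral_add i1 i2, integral_add (integrable_abs_id.const_mul _)
    (integrable_const _), integral_add (i4.const_mul _) (integrable_sq_gauss.const_mul _)]
  simp only [integral_const_mul, integral_const, probReal_univ, one_smul]
  rw [gridErr, gapTwo, integral_prod _ hgi]
  simp only [C, c]
  ring

end Vale.Agent.P157.Parisi.Sphere.Site
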