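import Vale.Agent.P157.Parisi.Sphere.Site.LowerBound
import Vale.Agent.P157.Parisi.Sphere.Site.Grid

/-!
Module H on the sphere: the cavity value in asymptotic cascades.
-/

noncomputable section

open MeasureTheory ProbabilityTheory Filter Topology Finset
open scoped BigOperators NNReal

namespace Vale.Agent.P157.Parisi.Sphere.Site

open Vale.Agent.P157.Parisi.Site

variable {N L : ℕ} {P : Pts N} {f : ℝ → ℝ} {A T : ℝ}

lemma cosh_sum_cell_le {R m : ℕ} (y b : ℝ) :
    gridSum R m y b ≤ 2 * Real.exp ((R : ℝ) * |y| + (R : ℝ) ^ 2 * |b|) := by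
  refine (Finset.sum_le_sum (g := fun j => cellW m j *
    (2 * Real.exp ((R : ℝ) * |y| + (R : ℝ) ^ 2 * |b|))) fun j hj => ?_).trans ?_
  · refine mul_le_mul_of_nonneg_left ?_ (cellW_nonneg m j)
    have h1 := node_le (Finset.mem_range.1 hj)
    have h0 : (0 : ℝ) ≤ (j : ℝ) / m := by positivity
    rw [Real.exp_add, ← mul_assoc]
    refine mul_le_mul (mul_le_mul_of_nonneg_left ((cosh_le_exp_abs _).trans (Real.exp_le_exp.2 ?_))
      two_pos.le) (Real.exp_le_exp.2 ?_) (Real.exp_pos _).le (by positivity)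
    · rw [abs_mul, abs_of_nonneg h0]
      exact mul_le_mul_of_nonneg_right h1 (abs_nonneg y)
    · exact (mul_le_mul_of_nonneg_left (le_abs_self b) (sq_nonneg _)).trans
        (mul_le_mul_of_nonneg_right (pow_le_pow_left₀ h0 h1 2) (abs_nonneg b))
  · rw [← Finset.sum_mul, sum_cellW]
    exact mul_le_of_le_one_left (by positivity) measureReal_le_one

/-- The cavity value is at least a polynomial in the moments of a truncation. -/
theorem cavVal_ge (hf : Smooth f A) (hT : 0 ≤ T) (hN : 0 < N) (R m : ℕ) (s : ℝ) (x : Fin L → ℝ)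
    (μ : ℝ) {φ : ℝ → ℝ} (hφc : Continuous φ) {M : ℝ} (hφ : ∀ y, 1 ≤ φ y ∧ φ y ≤ M) {c₀ κ : ℝ}
    (hc₀ : 0 < c₀)
    (hgrid : ∀ y b, c₀ * (φ y * Real.exp (-((R : ℝ) ^ 2 * |b - κ|))) ≤ gridSum R m y b)
    {Q : Polynomial ℝ} {ε : ℝ} (hQ : ∀ u ∈ Set.Icc (1 : ℝ) M, |Q.eval u - Real.log u| ≤ ε) :
    (∑ k ∈ Finset.range (Q.natDegree + 1), Q.coeff k * cutMom f s x P μ φ k) - ε + Real.log c₀ -
        M * ((R : ℝ) ^ 2 * devB f T s x P μ κ) ≤ cavVal P f R m T s x μ := by
  set X : Dis N L × (ℕ → ℝ) → ℝ := fun p =>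
    ∑ σ : Conf P, gib (totalH f s x p.1 : Conf P → ℝ) σ * φ (cavY f p.2 p.1 σ)
  set Lg : Dis N L × (ℕ → ℝ) → ℝ := fun p => Real.log (∑ σ : Conf P,
    gib (totalH f s x p.1 : Conf P → ℝ) σ * gridSum R m (cavY f p.2 p.1 σ) (cavB f T p.1 σ))
  have hgm : ∀ σ : Conf P, Measurable fun p : Dis N L × (ℕ → ℝ) =>
      gib (totalH f s x p.1 : Conf P → ℝ) σ :=
    fun σ => ((measurable_totalH hf.continuous s x σ).comp measurable_fst).exp.div
      (Finset.measurable_sum _ fun τ _ =>
        ((measurable_totalH hf.continuous s x τ).comp measurable_fst).exp)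
  have hXm : Measurable X := Finset.measurable_sum _ fun σ _ =>
    (hgm σ).mul (hφc.measurable.comp (measurable_cavY hf σ))
  have hLm : Measurable Lg := by
    refine (Finset.measurable_sum _ fun σ _ => (hgm σ).mul ?_).log
    have hY := measurable_cavY (L := L) hf σ
    have hB : Measurable fun p : Dis N L × (ℕ → ℝ) => cavB f T p.1 σ :=
      (measurable_cavB hf T σ).comp measurable_fst
    unfold gridSum
    fun_prop
  have hX : ∀ p, X p ∈ Set.Icc (1 : ℝ) M := fun p => by
    constructor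
    · refine (sum_gib (totalH f s x p.1 : Conf P → ℝ)).symm.le.trans (Finset.sum_le_sum fun σ _ => ?_)
      exact le_mul_of_one_le_right (gib_nonneg _ _) (hφ _).1
    · refine (Finset.sum_le_sum fun σ _ => mul_le_mul_of_nonneg_left (hφ _).2 (gib_nonneg _ _)).trans_eq ?_
      rw [← Finset.sum_mul, sum_gib, one_mul]
  have hR2 : (0 : ℝ) ≤ (R : ℝ) ^ 2 := sq_nonneg _
  set K₀ := |Real.log c₀| + Real.log 2 + (R : ℝ) ^ 2 * |κ|
  have hLb : ∀ p, |Lg p| ≤ K₀ + (p.1.1 : ℝ) * ((R : ℝ) ^ 2 * (A + T * A)) +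
      (R : ℝ) * A * ∑ a ∈ Finset.range p.1.1, |p.2 a| := by
    intro p
    set b := (p.1.1 : ℝ) * (A + T * A)
    set c := A * ∑ a ∈ Finset.range p.1.1, |p.2 a|
    have hc0 : 0 ≤ c :=
      mul_nonneg ((abs_nonneg _).trans (hf.b0 0)) (Finset.sum_nonneg fun a _ => abs_nonneg _)
    have hb := fun σ : Conf P => abs_cavB_le hf hT hN p.1 σ
    have hlo : c₀ * Real.exp (-((R : ℝ) ^ 2 * (b + |κ|))) ≤ ∑ σ : Conf P,
        gib (totalH f s x p.1 : Conf P → ℝ) σ * gridSum R m (cavY f p.2 p.1 σ) (cavB f T p.1 σ) := by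
      refine le_trans (le_of_eq ?_) (Finset.sum_le_sum (f := fun σ =>
        gib (totalH f s x p.1 : Conf P → ℝ) σ * (c₀ * Real.exp (-((R : ℝ) ^ 2 * (b + |κ|)))))
          fun σ _ => mul_le_mul_of_nonneg_left ?_ (gib_nonneg _ _))
      · rw [← Finset.sum_mul, sum_gib, one_mul]
      · refine le_trans (mul_le_mul_of_nonneg_left ?_ hc₀.le) (hgrid _ _)
        refine le_trans (Real.exp_le_exp.2 ?_) (le_mul_of_one_le_left (Real.exp_pos _).le (hφ _).1)
        exact neg_le_neg (mul_le_mul_of_nonneg_left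
          ((abs_sub _ _).trans (add_le_add (hb σ) le_rfl)) hR2)
    have hhi : ∑ σ : Conf P, gib (totalH f s x p.1 : Conf P → ℝ) σ *
        gridSum R m (cavY f p.2 p.1 σ) (cavB f T p.1 σ) ≤
        2 * Real.exp ((R : ℝ) * c + (R : ℝ) ^ 2 * b) := by
      refine (Finset.sum_le_sum (g := fun σ => gib (totalH f s x p.1 : Conf P → ℝ) σ *
        (2 * Real.exp ((R : ℝ) * c + (R : ℝ) ^ 2 * b)))
        fun σ _ => mul_le_mul_of_nonneg_left ?_ (gib_nonneg _ _)).trans_eq ?_
      · refine (cosh_sum_cell_le _ _).trans (mul_le_mul_of_nonneg_left (Real.exp_le_exp.2 ?_) two_pos.le)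
        exact add_le_add (mul_le_mul_of_nonneg_left (abs_cavY_le hf hN p.2 p.1 σ) (Nat.cast_nonneg _))
          (mul_le_mul_of_nonneg_left (hb σ) hR2)
      · rw [← Finset.sum_mul, sum_gib, one_mul]
    have hpos : 0 < c₀ * Real.exp (-((R : ℝ) ^ 2 * (b + |κ|))) := mul_pos hc₀ (Real.exp_pos _)
    have h1 := Real.log_le_log hpos hlo
    have h2 := Real.log_le_log (hpos.trans_le hlo) hhi
    rw [Real.log_mul hc₀.ne' (Real.exp_pos _).ne', Real.log_exp] at h1
    rw [Real.log_mul two_ne_zero (Real.exp_pos _).ne', Real.log_exp] at h2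
    have h3 : (0 : ℝ) ≤ (R : ℝ) * c := by positivity
    have h4 : (0 : ℝ) ≤ (R : ℝ) ^ 2 * |κ| := by positivity
    have e1 : (p.1.1 : ℝ) * ((R : ℝ) ^ 2 * (A + T * A)) = (R : ℝ) ^ 2 * b := by simp only [b]; ring
    have e2 : (R : ℝ) * A * ∑ a ∈ Finset.range p.1.1, |p.2 a| = (R : ℝ) * c := by simp only [c]; ring
    rw [e1, e2, abs_le]
    simp only [Lg, K₀]
    constructor <;> linarith [neg_abs_le (Real.log c₀), le_abs_self (Real.log c₀),
      Real.log_nonneg (show (1 : ℝ) ≤ 2 by norm_num)]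
  have hbd : ∀ d : Dis N L, Integrable (fun z : ℕ → ℝ => K₀ +
      (d.1 : ℝ) * ((R : ℝ) ^ 2 * (A + T * A)) + (R : ℝ) * A * ∑ a ∈ Finset.range d.1, |z a|) zLaw :=
    fun d => (integrable_const _).add
      ((integrable_finsetSum _ fun a _ => integrable_abs_coordinate a).const_mul _)
  have hLz : ∀ d, Integrable (fun z => Lg (d, z)) zLaw := fun d =>
    (hbd d).mono' (hLm.comp (measurable_const.prodMk measurable_id)).aestronglyMeasurable
      (ae_of_all _ fun z => hLb (d, z))
  have hLd : Integrable (fun d => ∫ z, Lg (d, z) ∂zLaw) (disLaw N L μ) := by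
    refine ((integrable_const K₀).add (integrable_count_fst μ ((R : ℝ) ^ 2 * (A + T * A) +
      (R : ℝ) * A * ∫ u, |u| ∂gaussianReal 0 1))).mono'
      (hLm.stronglyMeasurable.integral_prod_right' (ν := zLaw)).aestronglyMeasurable
      (ae_of_all _ fun d => (norm_integral_le_of_norm_le (hbd d) (ae_of_all _ fun z =>
        hLb (d, z))).trans_eq ?_)
    rw [integral_add (integrable_const _)
      ((integrable_finsetSum _ fun a _ => integrable_abs_coordinate a).const_mul _),
      integral_const_mul ((R : ℝ) * A), integral_finsetSum _ fun a _ => integrable_abs_coordinate a]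
    simp only [integral_abs_coordinate, Finset.sum_const, Finset.card_range, nsmul_eq_mul,
      integral_const, probReal_univ, one_smul, Pi.add_apply]
    ring
  have hXb : ∀ (k : ℕ) p, |X p ^ k| ≤ M ^ k := fun k p => by
    rw [abs_pow, abs_of_nonneg (zero_le_one.trans (hX p).1)]
    exact pow_le_pow_left₀ (zero_le_one.trans (hX p).1) (hX p).2 k
  have hXz : ∀ (k : ℕ) d, Integrable (fun z => Q.coeff k * X (d, z) ^ k) zLaw := fun k d =>
    (integrable_of_abs_le ((hXm.comp (measurable_const.prodMk measurable_id)).pow_const k)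
      fun z => hXb k (d, z)).const_mul _
  have hXd : ∀ k : ℕ, Integrable (fun d => Q.coeff k * ∫ z, X (d, z) ^ k ∂zLaw) (disLaw N L μ) :=
    fun k => (integrable_of_abs_le
      ((hXm.pow_const k).stronglyMeasurable.integral_prod_right' (ν := zLaw)).measurable
      fun d => abs_integral_le fun z => hXb k (d, z)).const_mul _
  set D : Dis N L → ℝ := fun d =>
    ∑ σ : Conf P, gib (totalH f s x d : Conf P → ℝ) σ * |cavB f T d σ - κ|
  have hD : Integrable D (disLaw N L μ) := integrable_dev hf hT hN s x μ κ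
  set Sd : Dis N L → ℝ := fun d =>
    ∑ k ∈ Finset.range (Q.natDegree + 1), Q.coeff k * ∫ z, X (d, z) ^ k ∂zLaw
  have hS : Integrable Sd (disLaw N L μ) := integrable_finsetSum _ fun k _ => hXd k
  have hpt : ∀ d, Sd d + ((Real.log c₀ - ε) - M * ((R : ℝ) ^ 2 * D d)) ≤ ∫ z, Lg (d, z) ∂zLaw := by
    intro d
    have hP' : ∀ z, (∑ k ∈ Finset.range (Q.natDegree + 1), Q.coeff k * X (d, z) ^ k) +
        ((Real.log c₀ - ε) - M * ((R : ℝ) ^ 2 * D d)) ≤ Lg (d, z) := fun z => by
      set W := gib (totalH f s x d : Conf P → ℝ)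
      have h1 := log_sum_ge (w := W) (φ := fun σ => φ (cavY f z d σ))
        (c := fun σ => φ (cavY f z d σ)) (B := fun σ => -((R : ℝ) ^ 2 * |cavB f T d σ - κ|))
        (gib_nonneg _) (sum_gib _) (fun σ => hφ _) (fun σ => le_rfl) 0
      simp only [sub_zero, add_zero, abs_neg, abs_mul, abs_abs, abs_of_nonneg hR2] at h1
      have e : ∑ σ, W σ * ((R : ℝ) ^ 2 * |cavB f T d σ - κ|) = (R : ℝ) ^ 2 * D d := by
        simp only [D, W, Finset.mul_sum]
        exact Finset.sum_congr rfl fun σ _ => by ring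
      rw [e] at h1
      set Z := ∑ σ, W σ * (φ (cavY f z d σ) * Real.exp (-((R : ℝ) ^ 2 * |cavB f T d σ - κ|)))
      have hZ : 0 < Z := by
        refine lt_of_lt_of_le (Real.exp_pos (-((R : ℝ) ^ 2 * ((d.1 : ℝ) * (A + T * A) + |κ|)))) ?_
        refine le_trans (le_of_eq ?_) (Finset.sum_le_sum (f := fun σ => W σ *
          Real.exp (-((R : ℝ) ^ 2 * ((d.1 : ℝ) * (A + T * A) + |κ|))))
            fun σ _ => mul_le_mul_of_nonneg_left ?_ (gib_nonneg _ _))
        · rw [← Finset.sum_mul, sum_gib, one_mul]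
        · refine le_trans (Real.exp_le_exp.2 ?_) (le_mul_of_one_le_left (Real.exp_pos _).le (hφ _).1)
          exact neg_le_neg (mul_le_mul_of_nonneg_left ((abs_sub _ _).trans
            (add_le_add (abs_cavB_le hf hT hN d σ) le_rfl)) hR2)
      have h3 : c₀ * Z ≤ ∑ σ, W σ * gridSum R m (cavY f z d σ) (cavB f T d σ) := by
        rw [Finset.mul_sum]
        refine Finset.sum_le_sum fun σ _ => ?_
        rw [mul_left_comm]
        exact mul_le_mul_of_nonneg_left (hgrid _ _) (gib_nonneg _ _)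
      have h4 := Real.log_le_log (mul_pos hc₀ hZ) h3
      rw [Real.log_mul hc₀.ne' hZ.ne'] at h4
      have h2 := (abs_le.1 (hQ _ (hX (d, z)))).2
      rw [Polynomial.eval_eq_sum_range] at h2
      simp only [X, Lg, W] at h1 h2 h4 ⊢
      linarith
    have hi : Integrable (fun z => (∑ k ∈ Finset.range (Q.natDegree + 1),
        Q.coeff k * X (d, z) ^ k) + ((Real.log c₀ - ε) - M * ((R : ℝ) ^ 2 * D d))) zLaw :=
      (integrable_finsetSum _ fun k _ => hXz k d).add (integrable_const _)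
    refine le_trans (le_of_eq ?_) (integral_mono hi (hLz d) hP')
    rw [integral_add (integrable_finsetSum _ fun k _ => hXz k d) (integrable_const _),
      integral_finsetSum _ fun k _ => hXz k d]
    simp only [Sd, integral_const_mul, integral_const, probReal_univ, one_smul]
  have hrest : Integrable (fun d => (Real.log c₀ - ε) - M * ((R : ℝ) ^ 2 * D d)) (disLaw N L μ) :=
    (integrable_const _).sub ((hD.const_mul _).const_mul M)
  have key : ∫ d, (Sd d + ((Real.log c₀ - ε) - M * ((R : ℝ) ^ 2 * D d))) ∂disLaw N L μ ≤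
      ∫ d, ∫ z, Lg (d, z) ∂zLaw ∂disLaw N L μ := integral_mono (hS.add hrest) hLd hpt
  rw [integral_add hS hrest, integral_sub (integrable_const _) ((hD.const_mul _).const_mul M),
    integral_const_mul, integral_const_mul, integral_finsetSum _ fun k _ => hXd k] at key
  simp only [integral_const_mul, integral_const, probReal_univ, one_smul] at key
  unfold devB cutMom
  change _ ≤ ∫ d, ∫ z, Lg (d, z) ∂zLaw ∂disLaw N L μ
  simp only [X, D] at key ⊢
  linarith

variable {α C : ℝ} {Nj : ℕ → ℕ} {Pj : ∀ j, Pts (Nj j)} {xj : ∀ j, Fin (Nj j) → ℝ} {μj : ℕ → ℝ}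
  {ξ : ℕ → Path}

/-- The moments of cosine sums with bounded varying coefficients converge to the tree moments. -/
theorem tendsto_cutMom_var (hcont : ContS) (hslope : SlopeStmt) (h : Setup α A C f Nj Pj xj μj ξ)
    {φ : ℕ → ℝ → ℝ} {D : ℕ} {c : ℕ → Fin D → ℝ} {t : Fin D → ℝ}
    (hφ : ∀ j y, φ j y = ∑ i, c j i * Real.cos (t i * y)) {B : ℝ} (hc : ∀ j i, |c j i| ≤ B)
    {M : ℝ} (hM : ∀ j y, |φ j y| ≤ M) (k : ℕ) :
    Tendsto (fun j => cutMom f (scale (Nj j)) (xj j) (Pj j) (μj j) (φ j) k -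
      fieldMoment (ξ j).m (rhoOf α f (ξ j)) (damp (deltaOf α f (ξ j)) (c j) t) k) atTop (𝓝 0) := by
  have hterm : ∀ i : Fin k → Fin D, Tendsto (fun j => (∏ l, c j (i l)) / 2 ^ k *
      ∑ sg : Fin k → Bool, (expMean f (scale (Nj j)) (xj j) (Pj j) (μj j)
        (fun l => sgn (sg l) * t (i l)) - expTree α f (ξ j) fun l => sgn (sg l) * t (i l)))
      atTop (𝓝 0) := fun i => by
    have h1 := ((tendsto_finsetSum (Finset.univ : Finset (Fin k → Bool)) fun sg _ =>
      tendsto_expMean hcont hslope h fun l => sgn (sg l) * t (i l)).norm).const_mul (B ^ k)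
    simp only [Finset.sum_const_zero, norm_zero, mul_zero] at h1
    refine squeeze_zero_norm (fun j => ?_) h1
    rw [norm_mul]
    refine mul_le_mul_of_nonneg_right ?_ (norm_nonneg _)
    rw [Real.norm_eq_abs, abs_div, abs_of_nonneg (show (0 : ℝ) ≤ 2 ^ k by positivity)]
    refine (div_le_self (abs_nonneg _) (one_le_pow₀ one_le_two)).trans ?_
    rw [Finset.abs_prod]
    exact (Finset.prod_le_prod (fun l _ => abs_nonneg _) fun l _ => hc j _).trans_eq (by simp)
  have hsum := tendsto_finsetSum (Finset.univ : Finset (Fin k → Fin D)) fun i _ => hterm i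
  simp only [Finset.sum_const_zero] at hsum
  refine hsum.congr fun j => ?_
  obtain ⟨hρ, hρ0, hδ, -⟩ := slope_facts hslope h.smooth h.alpha.le (ξ j)
  have hMd : ∀ y, |damp (deltaOf α f (ξ j)) (c j) t y| ≤ M := fun y => by
    rw [damp_eq (hφ j) hδ, spread]
    exact abs_integral_le fun g => hM j _
  rw [cutMom_eq h.smooth _ _ _ (hφ j), fieldMoment_eq (ξ j).m hρ hρ0 _ (c j) t hMd]
  simp only [Finset.sum_sub_distrib, mul_sub]
  congr 1
  simp only [expTree, Finset.mul_sum]
  conv_rhs => rw [Finset.sum_comm]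
  refine Finset.sum_congr rfl fun i _ => ?_
  conv_rhs => rw [Finset.sum_comm]
  exact Finset.sum_congr rfl fun sg _ => Finset.sum_congr rfl fun v _ => by ring

/-- The mean of the cavity exponent without truncation. -/
def kappaStar (α : ℝ) (f : ℝ → ℝ) (ξ : Path) : ℝ :=
  α / 2 * ((∑ p, weight ξ.m p * ξ.q p * slope f ξ.m ξ.q p) -
    ξ.oneVal f (fun z => deriv f z * deriv f z))

lemma weight_nonneg (ξ : Path) (p : Fin (ξ.r + 1)) : 0 ≤ weight ξ.m p := by
  obtain ⟨hpos, hlt, hmono, -, -, -⟩ := ξ.isPath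
  rw [weight, sub_nonneg]
  induction p using Fin.lastCases with
  | last =>
    rw [Fin.snoc_last]
    rcases Fin.eq_zero_or_eq_succ (Fin.last ξ.r) with h | ⟨i, h⟩ <;> rw [h]
    · simp
    · simpa using (hlt i).le
  | cast i =>
    rw [Fin.snoc_castSucc]
    rcases Fin.eq_zero_or_eq_succ i.castSucc with h | ⟨k, h⟩ <;> rw [h]
    · simpa using (hpos i).le
    · simp only [Fin.cons_succ]
      refine hmono.monotone (Fin.le_iff_val_le_val.2 ?_)
      have := congrArg Fin.val h
      simp at this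
      omega

lemma sum_weight_mul {r : ℕ} (m : Fin r → ℝ) (u : Fin (r + 1) → ℝ) :
    ∑ k, weight m k * u k = u (Fin.last r) - ∑ i : Fin r, m i * (u i.succ - u i.castSucc) := by
  have e1 : ∑ k, (Fin.snoc m 1 : Fin (r + 1) → ℝ) k * u k =
      (∑ i : Fin r, m i * u i.castSucc) + u (Fin.last r) := by
    rw [Fin.sum_univ_castSucc]; simp
  have e2 : ∑ k, (Fin.cons 0 m : Fin (r + 1) → ℝ) k * u k = ∑ i : Fin r, m i * u i.succ := by
    rw [Fin.sum_univ_succ]; simp
  simp only [weight, sub_mul, Finset.sum_sub_distrib, e1, e2, mul_sub]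
  ring

lemma precision_rec {r : ℕ} (α : ℝ) (f : ℝ → ℝ) (m : Fin r → ℝ) (q : Fin (r + 1) → ℝ) (i : Fin r) :
    precision α f m q i.castSucc = precision α f m q i.succ -
      m i * (α * slope f m q i.succ - α * slope f m q i.castSucc) := by
  set u := fun k : Fin r => m k * (slope f m q k.succ - slope f m q k.castSucc)
  have e : ∀ k : Fin r, (if i.val ≤ k.val then u k else 0) =
      (if k = i then u k else 0) + if i.val + 1 ≤ k.val then u k else 0 := by
    intro k
    rcases lt_trichotomy k.val i.val with h | h | h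
    · simp [not_le.2 h, Fin.ext_iff, h.ne, show ¬(i.val + 1 ≤ k.val) by omega]
    · simp [Fin.ext_iff, h]
    · simp [h.le, Fin.ext_iff, h.ne', show i.val + 1 ≤ k.val by omega]
  simp only [precision, Fin.val_castSucc, Fin.val_succ]
  rw [Finset.sum_congr rfl fun k _ => e k, Finset.sum_add_distrib, Finset.sum_ite_eq' Finset.univ i u,
    if_pos (Finset.mem_univ _)]
  simp only [u]
  ring

lemma precision_facts (hslope : SlopeStmt) (hf : Smooth f A) (hα : 0 ≤ α) (ξ : Path) :
    (∀ p, 1 ≤ precision α f ξ.m ξ.q p ∧ precision α f ξ.m ξ.q p ≤ 1 + α * A ^ 2) ∧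
      |kappaStar α f ξ| ≤ α * A ^ 2 ∧
      kappaStar α f ξ + deltaOf α f ξ / 2 = -((precision α f ξ.m ξ.q (Fin.last ξ.r) - 1) / 2) := by
  obtain ⟨hmono, hb⟩ := hslope f A hf ξ
  obtain ⟨hpos, -, -, hq, hq0, hq1⟩ := ξ.isPath
  set c := slope f ξ.m ξ.q
  set S := ∑ k, weight ξ.m k * ξ.q k * c k
  have hW : ∑ k, weight ξ.m k * c k = c (Fin.last ξ.r) -
      ∑ i : Fin ξ.r, ξ.m i * (c i.succ - c i.castSucc) := sum_weight_mul ξ.m c
  have hq' : ∀ k, 0 ≤ ξ.q k ∧ ξ.q k ≤ 1 := fun k =>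
    ⟨hq0.trans (hq (Fin.zero_le k)), (hq (Fin.le_last k)).trans hq1⟩
  have hS0 : 0 ≤ S := Finset.sum_nonneg fun k _ =>
    mul_nonneg (mul_nonneg (weight_nonneg ξ k) (hq' k).1) (hb k).1
  have hS1 : S ≤ ∑ k, weight ξ.m k * c k := Finset.sum_le_sum fun k _ =>
    mul_le_mul_of_nonneg_right (mul_le_of_le_one_right (weight_nonneg ξ k) (hq' k).2) (hb k).1
  have hinc : ∀ i : Fin ξ.r, 0 ≤ ξ.m i * (c i.succ - c i.castSucc) := fun i =>
    mul_nonneg (hpos i).le (sub_nonneg.2 (hmono (Fin.castSucc_le_succ i)))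
  have hlast := (hb (Fin.last ξ.r))
  refine ⟨fun p => ?_, ?_, ?_⟩
  · set Tp := ∑ i : Fin ξ.r, if p.val ≤ i.val then ξ.m i * (c i.succ - c i.castSucc) else 0
    have hT0 : 0 ≤ Tp := Finset.sum_nonneg fun i _ => by split_ifs <;> first | exact hinc i | rfl
    have hT1 : Tp ≤ ∑ i : Fin ξ.r, ξ.m i * (c i.succ - c i.castSucc) :=
      Finset.sum_le_sum fun i _ => by split_ifs <;> first | exact le_rfl | exact hinc i
    have e : precision α f ξ.m ξ.q p = 1 + α * (c (Fin.last ξ.r) - S) - α * Tp := rfl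
    have := mul_nonneg hα (show 0 ≤ c (Fin.last ξ.r) - S - Tp by linarith)
    have := mul_le_mul_of_nonneg_left (show c (Fin.last ξ.r) - S - Tp ≤ A ^ 2 by
      linarith [hlast.2.2.1, hlast.2.2.2]) hα
    constructor <;> linarith
  · have hsum : ∑ i : Fin ξ.r, ξ.m i * (c i.succ - c i.castSucc) ≥ 0 :=
      Finset.sum_nonneg fun i _ => hinc i
    have h1 : |S - ξ.oneVal f (fun z => deriv f z * deriv f z)| ≤ A ^ 2 := by
      rw [abs_le]
      constructor <;> linarith [hlast.2.2.1, hlast.2.2.2, hlast.1]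
    rw [kappaStar, abs_mul, abs_of_nonneg (show 0 ≤ α / 2 by linarith)]
    refine (mul_le_mul_of_nonneg_left h1 (by linarith)).trans ?_
    have := mul_nonneg hα (sq_nonneg A)
    linarith
  · have e : ∑ i : Fin ξ.r, (if (Fin.last ξ.r).val ≤ i.val then
        ξ.m i * (c i.succ - c i.castSucc) else 0) = 0 :=
      Finset.sum_eq_zero fun i _ => if_neg (by simp)
    simp only [kappaStar, deltaOf, rhoOf, precision]
    rw [e]
    ring

end Vale.Agent.P157.Parisi.Sphere.Site

namespace Vale.Agent.P157.Parisi.Sphere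

open Vale.Agent.P157.Parisi.Site Site
open Vale.Agent.P168.Cascade (Exps)

/-- Module H on the sphere, assuming modules F1 (continuity) and A2 (slope). -/
theorem site_stmt (hcont : ContS) (hslope : SlopeStmt) : SiteS := by
  intro α A C f hα hf Nj Pj xj μj ξ hN hpos hμ hC happ ε hε
  have h : Site.Setup α A C f Nj Pj xj μj ξ := ⟨hα, hf, hN, hpos, hμ, hC, happ⟩
  set S := α * A ^ 2
  have hS : 0 ≤ S := by positivity
  set V := (1 + S) ^ 3 * S + S
  have hV : 0 ≤ V := by positivity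
  have hlow := low_pos S
  obtain ⟨L, hL, hpoly⟩ : ∃ L : ℝ, 0 < L ∧ (V ^ 2 / 2 * (∫ g : ℝ, g ^ 4 ∂gaussianReal 0 1) +
      V * |Real.log (low S)| * ∫ g : ℝ, g ^ 2 ∂gaussianReal 0 1) / L ^ 2 < ε / 12 := by
    obtain ⟨L, h1, h2⟩ := ((((tendsto_pow_atTop two_ne_zero).const_div_atTop
      (V ^ 2 / 2 * (∫ g : ℝ, g ^ 4 ∂gaussianReal 0 1) +
        V * |Real.log (low S)| * ∫ g : ℝ, g ^ 2 ∂gaussianReal 0 1)).eventually
      (gt_mem_nhds (show (0 : ℝ) < ε / 12 by linarith))).and (eventually_gt_atTop 0)).exists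
    exact ⟨L, h2, h1⟩
  have htR : Tendsto (fun R : ℕ => 2 * Real.exp (-(R : ℝ)) * Real.exp ((L + 1) ^ 2 / 2) / low S)
      atTop (𝓝 0) := by
    simpa using (((Real.tendsto_exp_neg_atTop_nhds_zero.comp tendsto_natCast_atTop_atTop).const_mul
      2).mul_const (Real.exp ((L + 1) ^ 2 / 2))).div_const (low S)
  obtain ⟨R₁, hR₁⟩ := Filter.eventually_atTop.1
    (htR.eventually (gt_mem_nhds (show (0 : ℝ) < ε / 12 by linarith)))
  refine ⟨max R₁ 1, fun R hR => ?_⟩
  have hR1 : 1 ≤ R := (le_max_right _ _).trans hR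
  have htail := hR₁ R ((le_max_left _ _).trans hR)
  obtain ⟨m₁, hm₁⟩ := Filter.eventually_atTop.1
    (((tendsto_const_div_atTop_nhds_zero_nat (Real.sqrt V)).mul_const
      (∫ g, |g| ∂gaussianReal 0 1)).eventually
      (gt_mem_nhds (show (0 : ℝ) * (∫ g, |g| ∂gaussianReal 0 1) < ε / 12 by rw [zero_mul]; linarith)))
  refine ⟨max m₁ 1, fun m hm => ?_⟩
  have hm0 : 0 < m := (le_max_right _ _).trans hm
  have hmesh := hm₁ m ((le_max_left _ _).trans hm)
  have hgap := ((tendsto_gapTwo (c := (R : ℝ) * Real.sqrt V) (by positivity)).const_mul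
    (2 * Real.exp ((R : ℝ) ^ 2 * S))).div_const (low S)
  obtain ⟨K, hKg, hK⟩ := ((hgap.eventually (gt_mem_nhds (show 2 * Real.exp ((R : ℝ) ^ 2 * S) *
    0 / low S < ε / 12 by rw [mul_zero, zero_div]; linarith))).and (eventually_gt_atTop 0)).exists
  have herr : Site.gridErr V S L R m K ≤ ε / 3 := by
    rw [Site.gridErr]
    linarith
  set M := 2 * Real.cosh K * Real.exp ((R : ℝ) ^ 2 * S) / low S
  -- the normalised truncated spin as a cosine sum
  set φ : ℕ → ℝ → ℝ := fun j y => cutGrid R m K (kappaStar α f (ξ j)) y / low S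
  have hfacts := fun j => precision_facts hslope hf hα.le (ξ j)
  have hmem : ∀ j y, 1 ≤ φ j y ∧ φ j y ≤ M := fun j y =>
    ⟨(one_le_div hlow).2 (low_le_cutGrid hR1 hm0 hK hS (abs_le.1 (hfacts j).2.1).1 y),
      div_le_div_of_nonneg_right (cutGrid_le (abs_le.1 (hfacts j).2.1).2 hS y) hlow.le⟩
  have hM : 1 ≤ M := (hmem 0 0).1.trans (hmem 0 0).2
  obtain ⟨D₀, c₀, t₀, hct⟩ := isTrig_cut K
  set e : Fin (R * m * D₀) ≃ Fin (R * m) × Fin D₀ := finProdFinEquiv.symm
  set c : ℕ → Fin (R * m * D₀) → ℝ := fun j i => cellW m (e i).1.val *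
    (2 * c₀ (e i).2 * Real.exp ((((e i).1.val : ℕ) : ℝ) / m * (((e i).1.val : ℕ) / m) *
      kappaStar α f (ξ j))) / low S
  set t : Fin (R * m * D₀) → ℝ := fun i => t₀ (e i).2 * ((((e i).1.val : ℕ) : ℝ) / m)
  have hφ : ∀ j y, φ j y = ∑ i, c j i * Real.cos (t i * y) := fun j y => by
    simp only [φ, cutGrid, c, t]
    rw [e.sum_comp fun p : Fin (R * m) × Fin D₀ => cellW m p.1.val * (2 * c₀ p.2 *
      Real.exp (((p.1.val : ℕ) : ℝ) / m * ((p.1.val : ℕ) / m) * kappaStar α f (ξ j))) / low S *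
        Real.cos (t₀ p.2 * (((p.1.val : ℕ) : ℝ) / m) * y),
      Fintype.sum_prod_type, Finset.sum_range, Finset.sum_div]
    refine Finset.sum_congr rfl fun i _ => ?_
    simp only [hct, Finset.mul_sum, Finset.sum_mul, Finset.sum_div, sq]
    exact Finset.sum_congr rfl fun l _ => by ring_nf
  set B := ∑ i : Fin (R * m * D₀), |2 * c₀ (e i).2| * Real.exp ((R : ℝ) ^ 2 * S) / low S
  have hc : ∀ j i, |c j i| ≤ B := fun j i => by
    refine le_trans ?_ (Finset.single_le_sum (f := fun i : Fin (R * m * D₀) =>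
      |2 * c₀ (e i).2| * Real.exp ((R : ℝ) ^ 2 * S) / low S) (fun i _ => by positivity)
      (Finset.mem_univ i))
    simp only [c]
    rw [abs_div, abs_of_pos hlow, abs_mul, abs_of_nonneg (cellW_nonneg _ _)]
    refine div_le_div_of_nonneg_right ?_ hlow.le
    refine (mul_le_of_le_one_left (abs_nonneg _) measureReal_le_one).trans ?_
    rw [abs_mul, abs_of_pos (Real.exp_pos _)]
    refine mul_le_mul_of_nonneg_left (Real.exp_le_exp.2 ?_) (abs_nonneg _)
    have h1 := node_le (e i).1.isLt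
    have h0 : (0 : ℝ) ≤ (((e i).1.val : ℕ) : ℝ) / m := by positivity
    rw [sq]
    exact (mul_le_mul_of_nonneg_left (abs_le.1 (hfacts j).2.1).2 (mul_nonneg h0 h0)).trans
      (mul_le_mul_of_nonneg_right (mul_le_mul h1 h1 h0 (Nat.cast_nonneg _)) hS)
  obtain ⟨Q, hQ'⟩ := exists_polynomial_near_of_continuousOn 1 M Real.log
    (Real.continuousOn_log.mono fun u hu => by
      simp only [Set.mem_compl_iff, Set.mem_singleton_iff]; exact (zero_lt_one.trans_le hu.1).ne')
    (ε / 12) (by linarith)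
  have hQ : ∀ u ∈ Set.Icc (1 : ℝ) M, |Q.eval u - Real.log u| ≤ ε / 12 :=
    fun u hu => (hQ' u hu).le
  set G := M * (R : ℝ) ^ 2
  have hG : 0 ≤ G := mul_nonneg (zero_le_one.trans hM) (sq_nonneg _)
  have htailT := (tendsto_tailT.const_mul (α / 2 * (A * Real.exp (2 * A)) * G))
  rw [mul_zero] at htailT
  obtain ⟨T₁, hT₁⟩ := Filter.eventually_atTop.1
    (htailT.eventually (gt_mem_nhds (show (0 : ℝ) < ε / 12 by linarith)))
  refine ⟨max T₁ 0, fun T hT => ?_⟩
  have hT0 : 0 ≤ T := (le_max_right _ _).trans hT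
  have htT := hT₁ T ((le_max_left _ _).trans hT)
  have hmom := tendsto_finsetSum (Finset.range (Q.natDegree + 1)) fun k _ =>
    (Site.tendsto_cutMom_var hcont hslope h hφ hc (M := M) (fun j y => by
      rw [abs_of_nonneg (zero_le_one.trans (hmem j y).1)]; exact (hmem j y).2) k).const_mul
        (Q.coeff k)
  simp only [mul_zero, Finset.sum_const_zero, mul_sub, Finset.sum_sub_distrib] at hmom
  filter_upwards [Metric.tendsto_nhds.1 hmom (ε / 12) (by linarith),
    Site.eventually_devB hcont h hT0 (η := ε / (12 * (G + 1))) (by positivity),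
    Site.kappa_bound hcont hslope hf hpos happ hT0 (ε := ε / (6 * α * (G + 1))) (by positivity)]
    with j hm hd hk
  rw [Real.dist_eq, sub_zero] at hm
  obtain ⟨hρ, hρ0, hδ, hρS⟩ := slope_facts hslope hf hα.le (ξ j)
  obtain ⟨hD, hκ, hrel⟩ := hfacts j
  have hexps : Exps (ξ j).m := ⟨(ξ j).isPath.pos, (ξ j).isPath.lt_one, (ξ j).isPath.strictMono⟩
  set κ := kappaStar α f (ξ j)
  set δ := deltaOf α f (ξ j)
  set Df := precision α f (ξ j).m (ξ j).q
  have hcont_φ : Continuous (φ j) := (continuous_cutGrid R m K κ).div_const _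
  have hgrid : ∀ y b, low S * (φ j y * Real.exp (-((R : ℝ) ^ 2 * |b - κ|))) ≤ gridSum R m y b := by
    intro y b
    rw [← mul_assoc, mul_div_cancel₀ _ hlow.ne', cutGrid, Finset.sum_mul]
    refine Finset.sum_le_sum fun i hi => ?_
    rw [mul_assoc]
    refine mul_le_mul_of_nonneg_left ?_ (cellW_nonneg m i)
    rw [mul_assoc (2 * cut K ((i : ℝ) / m * y)), ← Real.exp_add]
    refine mul_le_mul (mul_le_mul_of_nonneg_left (cut_le_cosh K _) two_pos.le)
      (Real.exp_le_exp.2 ?_) (Real.exp_pos _).le (by positivity)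
    have h1 := node_le (Finset.mem_range.1 hi)
    have h0 : (0 : ℝ) ≤ (i : ℝ) / m := by positivity
    have h2 := mul_le_mul_of_nonneg_right (pow_le_pow_left₀ h0 h1 2) (abs_nonneg (b - κ))
    have h3 := mul_le_mul_of_nonneg_left (neg_abs_le (b - κ)) (sq_nonneg ((i : ℝ) / m))
    linarith
  have h1 := Site.cavVal_ge (P := Pj j) hf hT0 (hpos j) R m (scale (Nj j)) (xj j) (μj j) hcont_φ
    (hmem j) hlow hgrid hQ
  have hdampEq : ∀ y, damp δ (c j) t y = spread δ (cutGrid R m K κ) y / low S := fun y => by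
    rw [damp_eq (hφ j) hδ, spread, spread, ← integral_div]
  have hdm : ∀ y, 1 ≤ damp δ (c j) t y ∧ damp δ (c j) t y ≤ M := fun y => by
    rw [damp_eq (hφ j) hδ]
    exact spread_mem hcont_φ.measurable (hmem j) δ y
  have h2 := abs_le.1 (level_approx hexps (ρ := rhoOf α f (ξ j)) (continuous_damp _ (c j) t) hM hdm hQ)
  have hψ : Grow (Real.log M) fun y => Real.log (damp δ (c j) t y) :=
    ⟨(continuous_damp δ (c j) t).measurable.log, fun y => Real.log_nonneg (hdm y).1,
      fun y => (Real.log_le_log (zero_lt_one.trans_le (hdm y).1) (hdm y).2).trans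
        (le_add_of_nonneg_right (abs_nonneg y))⟩
  obtain ⟨w, hw0, hwV, h3⟩ := Site.integral_level_ge_quad (ξ j).isPath.pos hρ hρ0
    (D := Df) (fun p => (hD p).1)
    (fun i => Site.precision_rec α f (ξ j).m (ξ j).q i) (S := S) (fun p => (hD p).2) hψ
    (Site.quad_hFun (D := Df (Fin.last _)) hR1 hm0 hK hS hκ δ (hD _).1)
    (c := -(Real.log (Df (Fin.last _)) / 2) - Real.log (low S)) (fun y => by
      obtain ⟨hs, -⟩ := spread_cutGrid_mem hR1 hm0 hK hS hκ δ y
      rw [hdampEq, Real.log_div (hlow.trans_le hs).ne' hlow.ne', hFun, qtop]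
      linarith)
  have hwV' : w ≤ V := hwV.trans <| by
    have : rhoOf α f (ξ j) (Fin.last _) ≤ S := le_trans (by linarith) hρS
    exact (mul_le_mul_of_nonneg_left this (by positivity)).trans (le_add_of_nonneg_right hS)
  have hδV : δ ≤ V := by
    have := hρ0.trans (hρ (Fin.zero_le (Fin.last _)))
    have : 0 ≤ (1 + S) ^ 3 * S := by positivity
    linarith
  have h4 := Site.integral_hFun_ge (V := V) (L := L) hR1 hm0 hK hL hκ hδ hδV hw0 hwV'
    (hD (Fin.last _)).1 (hD (Fin.last _)).2 hrel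
  have e1 : siteSphere α f (ξ j).m (ξ j).q = rhoOf α f (ξ j) 0 / (2 * Df 0) -
      Real.log (Df (Fin.last _)) / 2 +
      ∑ i : Fin (ξ j).r, Real.log (Df i.succ / Df i.castSucc) / (2 * (ξ j).m i) := rfl
  -- the exponent
  have hκT : |kappaOf α f T (ξ j) - κ| ≤ α / 2 * (A * Real.exp (2 * A) * tailT T +
      ε / (6 * α * (G + 1))) := by
    refine le_trans (le_of_eq ?_) (mul_le_mul_of_nonneg_left hk (by linarith))
    rw [← abs_of_nonneg (show 0 ≤ α / 2 by linarith), ← abs_mul]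
    congr 1
    simp only [kappaOf, κ, kappaStar]
    ring
  have hdev : Site.devB f T (scale (Nj j)) (xj j) (Pj j) (μj j) κ ≤
      Site.devB f T (scale (Nj j)) (xj j) (Pj j) (μj j) (kappaOf α f T (ξ j)) +
        |kappaOf α f T (ξ j) - κ| := by
    unfold Site.devB
    have i1 := Site.integrable_dev (P := Pj j) hf hT0 (hpos j) (scale (Nj j)) (xj j) (μj j)
    calc _ ≤ ∫ d, ((∑ σ : Conf (Pj j),
          Site.gib (totalH f (scale (Nj j)) (xj j) d : Conf (Pj j) → ℝ) σ *
            |cavB f T d σ - kappaOf α f T (ξ j)|) + |kappaOf α f T (ξ j) - κ|)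
              ∂disLaw (Nj j) (Nj j) (μj j) := by
          refine integral_mono (i1 κ) ((i1 _).add (integrable_const _)) fun d => ?_
          refine (Finset.sum_le_sum fun σ _ => mul_le_mul_of_nonneg_left
            (abs_sub_le _ (kappaOf α f T (ξ j)) _) (Site.gib_nonneg _ σ)).trans_eq ?_
          simp only [mul_add, Finset.sum_add_distrib, ← Finset.sum_mul, Site.sum_gib, one_mul]
      _ = _ := by rw [integral_add (i1 _) (integrable_const _)]; simp
  have hGd := mul_le_mul_of_nonneg_left (hdev.trans (add_le_add hd hκT)) hG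
  have b1 : G * (ε / (12 * (G + 1))) ≤ ε / 12 := by
    rw [mul_div_assoc', div_le_div_iff₀ (by positivity) (by norm_num)]
    nlinarith
  have b2 : G * (α / 2 * (ε / (6 * α * (G + 1)))) ≤ ε / 12 := by
    refine le_trans (le_of_eq ?_) b1
    field_simp
    ring
  have hassoc : M * ((R : ℝ) ^ 2 * Site.devB f T (scale (Nj j)) (xj j) (Pj j) (μj j) κ) =
      G * Site.devB f T (scale (Nj j)) (xj j) (Pj j) (μj j) κ := by simp only [G]; ring
  rw [hassoc] at h1
  rw [mul_add G, mul_add (α / 2), mul_add G] at hGd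
  have h4' : -Site.gridErr V S L R m K ≤
      ∫ g, hFun R m K κ δ (Df (Fin.last _)) (Real.sqrt w * g) ∂gaussianReal 0 1 := h4
  have := (abs_lt.1 hm).1
  linarith

end Vale.Agent.P157.Parisi.Sphere
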