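import Vale.Agent.P157.Parisi.Sphere.Site.Sys

/-!
Powers of pattern averages in the perturbed system converge to powers of tree values.
-/

noncomputable section

open MeasureTheory ProbabilityTheory Filter Topology Finset
open scoped BigOperators NNReal

namespace Vale.Agent.P157.Parisi.Sphere.Site

open Vale.Agent.P157.Parisi.Site

variable {N L n k : ℕ} {P : Pts N} {f : ℝ → ℝ} {A s : ℝ} {x : Fin L → ℝ}

lemma sysState_isGood (hf : Continuous f) (μ : ℝ) : (sysState P f s x μ).IsGood where
  prob := inferInstanceAs (IsProbabilityMeasure (disLaw N L μ))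
  meas σ := by
    have h : ∀ τ : Conf P, Measurable fun d : Dis N L => totalH f s x d τ := fun τ => by
      simp only [totalH_eq]
      exact measurable_headOf_apply (Ψ := fun _ q => finH f s x q τ) fun m => measurable_finH hf τ
    show Measurable fun d : Dis N L =>
      Real.exp (totalH f s x d σ) / ∑ τ : Conf P, Real.exp (totalH f s x d τ)
    exact (h σ).exp.div (Finset.measurable_sum _ fun τ _ => (h τ).exp)
  nonneg d σ := gib_nonneg _ σ
  sum_one d := sum_gib _

lemma integral_patLaw_append {a : ℕ}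
    {Ψ : (Fin (a + k) → Fin N → ℝ) × (PertIdx N L → ℝ) → ℝ} (hΨ : Measurable Ψ) {B : ℝ}
    (hb : ∀ q, |Ψ q| ≤ B) :
    ∫ q, ∫ g, Ψ (Fin.append q.1 g, q.2) ∂(Measure.pi fun _ : Fin k => gam (Fin N))
        ∂patLaw N L a =
      ∫ q, Ψ q ∂patLaw N L (a + k) := by
  have hap := measurePreserving_append (gam (Fin N)) a k
  have hmJ : ∀ J : PertIdx N L → ℝ, Measurable fun c : Fin (a + k) → Fin N → ℝ => Ψ (c, J) :=
    fun J => hΨ.comp (measurable_id.prodMk measurable_const)
  have hin : Measurable fun z : ((Fin a → Fin N → ℝ) × (PertIdx N L → ℝ)) × (Fin k → Fin N → ℝ) =>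
      Ψ (Fin.append z.1.1 z.2, z.1.2) :=
    hΨ.comp ((hap.measurable.comp ((measurable_fst.comp measurable_fst).prodMk
      measurable_snd)).prodMk (measurable_snd.comp measurable_fst))
  unfold patLaw
  rw [integral_prod_symm _ (integrable_of_abs_le hΨ hb),
    integral_prod_symm _ (integrable_of_abs_le
      (hin.stronglyMeasurable.integral_prod_right'
        (ν := Measure.pi fun _ : Fin k => gam (Fin N))).measurable
      fun q => abs_integral_le fun g => hb _)]
  refine integral_congr_ae (ae_of_all _ fun J => ?_)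
  show ∫ c, ∫ g, Ψ (Fin.append c g, J) ∂_ ∂_ = ∫ c, Ψ (c, J) ∂_
  conv_rhs => rw [← hap.map_eq]
  rw [integral_map hap.measurable.aemeasurable (hmJ J).aestronglyMeasurable,
    integral_prod (fun p : (Fin a → Fin N → ℝ) × (Fin k → Fin N → ℝ) => Ψ (Fin.append p.1 p.2, J))
      (integrable_of_abs_le ((hmJ J).comp hap.measurable) fun _ => hb _)]

/-- Replica means under fresh patterns are means over systems with more patterns. -/
lemma fresh_eq (hf : Continuous f) (μ : ℝ)
    {Φ : (Fin k → Fin N → ℝ) → (Fin n → Conf P) → ℝ} (hΦ : ∀ σ, Measurable fun g => Φ g σ)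
    {B : ℝ} (hb : ∀ g σ, |Φ g σ| ≤ B) :
    (∫ d : Dis N L, ∫ g : Fin k → Fin N → ℝ,
      (∑ σ : Fin n → Conf P,
          (∏ l, (sysState P f s x μ).w d (σ l) *
            Real.exp (∑ j, f (dot (g j) (unitVec (σ l))))) * Φ g σ) /
        (∑ σ : Conf P, (sysState P f s x μ).w d σ * Real.exp (∑ j, f (dot (g j) (unitVec σ)))) ^ n
      ∂(Measure.pi fun _ => gam (Fin N)) ∂disLaw N L μ) =
      ∫ m, ∫ q, rep n (finH f s x q) (Φ fun i => q.1 (Fin.natAdd m i)) ∂patLaw N L (m + k)
        ∂poissonMeasure μ.toNNReal := by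
  set Ψ : (m : ℕ) → (Fin m → Fin N → ℝ) × (PertIdx N L → ℝ) → ℝ := fun m q =>
    ∫ g : Fin k → Fin N → ℝ,
      rep n (fun τ => finH f s x q τ + ∑ j, f (dot (g j) (unitVec τ))) (Φ g)
        ∂(Measure.pi fun _ => gam (Fin N))
  have hΨ : ∀ m, Measurable (Ψ m) := fun m => by
    refine (StronglyMeasurable.integral_prod_right' (f := fun z :
      ((Fin m → Fin N → ℝ) × (PertIdx N L → ℝ)) × (Fin k → Fin N → ℝ) =>
        rep n (fun τ => finH f s x z.1 τ + ∑ j, f (dot (z.2 j) (unitVec τ))) (Φ z.2)) ?_).measurable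
    refine (measurable_rep (fun σ => ((measurable_finH hf σ).comp measurable_fst).add
      (Finset.measurable_sum _ fun j _ => hf.measurable.comp ((measurable_dot_left _).comp
        ((measurable_pi_apply j).comp measurable_snd))))
      fun σ => (hΦ σ).comp measurable_snd).stronglyMeasurable
  calc _ = ∫ d : Dis N L, Ψ d.1 (headOf d) ∂disLaw N L μ := by
        refine integral_congr_ae (ae_of_all _ fun d => integral_congr_ae (ae_of_all _ fun g => ?_))
        show (∑ σ : Fin n → Conf P,
          (∏ l, gib (totalH f s x d) (σ l) * Real.exp (∑ j, f (dot (g j) (unitVec (σ l))))) * Φ g σ) /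
            (∑ σ : Conf P, gib (totalH f s x d) σ * Real.exp (∑ j, f (dot (g j) (unitVec σ)))) ^ n = _
        rw [integrand_eq, totalH_eq]
    _ = ∫ m, ∫ q, Ψ m q ∂patLaw N L m ∂poissonMeasure μ.toNNReal :=
        (integral_disLaw hΨ (Bd := fun _ => B)
          (fun m q => abs_integral_le fun g => abs_rep_le _ (hb g)) (integrable_const B)).2
    _ = _ := by
        refine integral_congr_ae (ae_of_all _ fun m => ?_)
        show ∫ q, Ψ m q ∂patLaw N L m = _
        have hmeas : Measurable fun q : (Fin (m + k) → Fin N → ℝ) × (PertIdx N L → ℝ) =>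
            rep n (finH f s x q) (Φ fun i => q.1 (Fin.natAdd m i)) :=
          measurable_rep (measurable_finH hf) fun σ => (hΦ σ).comp (measurable_pi_lambda _ fun i =>
            (measurable_pi_apply (Fin.natAdd m i)).comp measurable_fst)
        refine Eq.trans ?_ (integral_patLaw_append hmeas fun q => abs_rep_le _ (hb _))
        refine integral_congr_ae (ae_of_all _ fun q => integral_congr_ae (ae_of_all _ fun g => ?_))
        have e : finH f s x (Fin.append q.1 g, q.2) =
            fun τ : Conf P => finH f s x q τ + ∑ j, f (dot (g j) (unitVec τ)) := by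
          funext τ
          simp only [finH, Fin.sum_univ_add, Fin.append_left, Fin.append_right]
          ring
        simp [e]

lemma patMean_eq_patG (hf : Continuous f) (μ : ℝ) {o : Fin k → Obs n} (ho : ∀ i, (o i).Good) :
    (sysState P f s x μ).patMean f (fun _ => 1) o = patG f s x P μ fun i => (o i).eval := by
  choose hc hc' C hC using ho
  have hb : ∀ (g : Fin k → Fin N → ℝ) (σ : Fin n → Conf P),
      |1 * ∏ j, (o j).eval (fun l => dot (g j) (unitVec (σ l)))| ≤ ∏ j, C j * C j := fun g σ => by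
    rw [one_mul, Finset.abs_prod]
    refine Finset.prod_le_prod (fun j _ => abs_nonneg _) fun j _ => ?_
    rw [Obs.eval, abs_mul]
    exact mul_le_mul (hC j _).1 (hC j _).2 (abs_nonneg _) ((abs_nonneg _).trans (hC j 0).1)
  have h := fresh_eq (L := L) (s := s) (x := x) hf μ
    (Φ := fun g σ => 1 * ∏ j, (o j).eval fun l => dot (g j) (unitVec (σ l))) (fun σ => by
      refine measurable_const.mul (Finset.measurable_prod _ fun j _ => ?_)
      exact ((hc j).measurable.comp ((measurable_dot_left _).comp (measurable_pi_apply j))).mul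
        ((hc' j).measurable.comp ((measurable_dot_left _).comp (measurable_pi_apply j)))) hb
  refine Eq.trans ?_ (h.trans ?_)
  · rfl
  · simp only [patG, tupMean, one_mul]
    rfl

/-- The replica mean of a power of a pattern average. -/
def powMean (f : ℝ → ℝ) (s : ℝ) (x : Fin L → ℝ) (P : Pts N) (μ : ℝ) (k : ℕ)
    (G : (Fin n → ℝ) → ℝ) : ℝ :=
  ∫ d, rep n (totalH f s x d) (fun σ : Fin n → Conf P =>
    ((∑ a ∈ Finset.range d.1, G (fld (d.2.1 a) σ)) / N) ^ k) ∂disLaw N L μ

lemma powMean_approx (hf : Continuous f) {μ : ℝ} (hμ : 0 ≤ μ) (k : ℕ) {G : (Fin n → ℝ) → ℝ}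
    (hG : Measurable G) {B : ℝ} (hb : ∀ v, |G v| ≤ B) :
    |powMean f s x P μ k G - (μ / N) ^ k * patG f s x P μ (fun _ : Fin k => G)| ≤
      B ^ k * (((∫ m, (m : ℝ) ^ k ∂poissonMeasure μ.toNNReal) - μ ^ k) / (N : ℝ) ^ k) := by
  have hB0 : 0 ≤ B := (abs_nonneg _).trans (hb fun _ => 0)
  set Ψ : (m : ℕ) → (Fin m → Fin N → ℝ) × (PertIdx N L → ℝ) → ℝ := fun m q =>
    rep n (finH f s x q) (fun σ : Fin n → Conf P => ((∑ i, G (fld (q.1 i) σ)) / N) ^ k)
  have hΨb : ∀ m q, |Ψ m q| ≤ (B / N) ^ k * (m : ℝ) ^ k := fun m q => by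
    refine abs_rep_le _ fun σ => ?_
    rw [abs_pow, ← mul_pow, abs_div, Nat.abs_cast, div_mul_eq_mul_div]
    refine pow_le_pow_left₀ (by positivity) (div_le_div_of_nonneg_right ?_ (Nat.cast_nonneg _)) k
    exact ((Finset.abs_sum_le_sum_abs _ _).trans (Finset.sum_le_sum fun i _ => hb _)).trans_eq
      (by simp [mul_comm])
  have hΨ : ∀ m, Measurable (Ψ m) := fun m =>
    measurable_rep (measurable_finH hf) fun σ => ((Finset.measurable_sum _ fun i _ =>
      hG.comp ((measurable_fld σ).comp ((measurable_pi_apply i).comp measurable_fst))).div_const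
        _).pow_const _
  have e0 : powMean f s x P μ k G =
      ∫ m, ∫ q, Ψ m q ∂patLaw N L m ∂poissonMeasure μ.toNNReal := by
    rw [← (integral_disLaw hΨ hΨb (integrable_of_pow_bound _ k fun m => by
      rw [abs_mul, abs_of_nonneg (a := (B / N) ^ k) (by positivity),
        abs_of_nonneg (a := (m : ℝ) ^ k) (by positivity)])).2]
    refine integral_congr_ae (ae_of_all _ fun d => ?_)
    simp only [Ψ, totalH_eq, Finset.sum_range]
    rfl
  have e1 : ∀ m, ∫ q, Ψ m q ∂patLaw N L m =
      ((N : ℝ) ^ k)⁻¹ * ∑ t : Fin k → Fin m, tupMean f s x P m t fun _ => G := by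
    intro m
    have h : ∀ q, Ψ m q = ((N : ℝ) ^ k)⁻¹ * ∑ t : Fin k → Fin m,
        rep n (finH f s x q) (fun σ : Fin n → Conf P => ∏ i, G (fld (q.1 (t i)) σ)) := by
      intro q
      rw [← rep_sum, ← rep_const_mul]
      simp only [Ψ]
      congr 1
      funext σ
      rw [div_pow, Fintype.sum_pow, div_eq_inv_mul]
    simp only [h, integral_const_mul]
    congr 1
    exact integral_finsetSum _ fun t _ => integrable_of_abs_le
      (measurable_rep (measurable_finH hf) fun σ => measurable_prod_fld (fun _ => hG) σ t)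
      fun q => abs_rep_le _ fun σ => abs_prod_fld_le (fun _ => hb) _ σ
  set c : ℕ → ℝ := fun a => tupMean f s x P (a + k) (Fin.natAdd a) fun _ => G
  have hc : ∀ a, |c a| ≤ B ^ k := fun a => abs_tupMean_le (fun _ => hb) _
  have hkey : ∀ m : ℕ, |(∑ t : Fin k → Fin m, tupMean f s x P m t fun _ => G) -
      (m.descFactorial k : ℝ) * c (m - k)| ≤ B ^ k * ((m : ℝ) ^ k - (m.descFactorial k : ℝ)) := by
    intro m
    refine abs_sum_sub_injective _ _ (fun t => abs_tupMean_le (fun _ => hb) t) fun t ht => ?_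
    have hkm : k ≤ m := by simpa using Fintype.card_le_of_injective t ht
    obtain ⟨a, rfl⟩ : ∃ a, m = a + k := ⟨m - k, by omega⟩
    simp only [c, Nat.add_sub_cancel]
    exact tupMean_injective hf (fun _ => hG) ht
  have hi1 : Integrable (fun m : ℕ => ((N : ℝ) ^ k)⁻¹ *
      ∑ t : Fin k → Fin m, tupMean f s x P m t fun _ => G) (poissonMeasure μ.toNNReal) := by
    refine integrable_of_pow_bound _ (B := ((N : ℝ) ^ k)⁻¹ * B ^ k) k fun m => ?_
    rw [abs_mul, abs_of_nonneg (a := ((N : ℝ) ^ k)⁻¹) (by positivity), mul_assoc]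
    refine mul_le_mul_of_nonneg_left ?_ (by positivity)
    refine ((Finset.abs_sum_le_sum_abs _ _).trans
      (Finset.sum_le_sum fun t _ => abs_tupMean_le (fun _ => hb) t)).trans_eq ?_
    simp [mul_comm]
  have hid : Integrable (fun m : ℕ => (m.descFactorial k : ℝ)) (poissonMeasure μ.toNNReal) :=
    integrable_of_pow_bound _ (B := 1) k fun m => by
      rw [Nat.abs_cast, one_mul]; exact_mod_cast Nat.descFactorial_le_pow m k
  have hi2 : Integrable (fun m : ℕ => ((N : ℝ) ^ k)⁻¹ * ((m.descFactorial k : ℝ) * c (m - k)))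
      (poissonMeasure μ.toNNReal) := by
    refine integrable_of_pow_bound _ (B := ((N : ℝ) ^ k)⁻¹ * B ^ k) k fun m => ?_
    rw [abs_mul, abs_of_nonneg (a := ((N : ℝ) ^ k)⁻¹) (by positivity), mul_assoc, abs_mul,
      Nat.abs_cast, mul_comm (m.descFactorial k : ℝ)]
    exact mul_le_mul_of_nonneg_left (mul_le_mul (hc _)
      (by exact_mod_cast Nat.descFactorial_le_pow m k) (Nat.cast_nonneg _) (by positivity))
      (by positivity)
  have hd1 : ∫ m, (m.descFactorial k : ℝ) ∂poissonMeasure μ.toNNReal = μ ^ k := by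
    have := integral_descFactorial_mul μ.toNNReal k (h := fun _ => (1 : ℝ)) (B := 1) (by simp)
    simpa [Real.coe_toNNReal _ hμ] using this
  have e2 : (μ / N) ^ k * patG f s x P μ (fun _ : Fin k => G) =
      ∫ m, ((N : ℝ) ^ k)⁻¹ * ((m.descFactorial k : ℝ) * c (m - k))
        ∂poissonMeasure μ.toNNReal := by
    rw [integral_const_mul, integral_descFactorial_mul _ k hc, Real.coe_toNNReal _ hμ, div_pow]
    show μ ^ k / (N : ℝ) ^ k * ∫ m, c m ∂_ = _
    ring
  rw [e0, funext e1, e2, ← integral_sub hi1 hi2]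
  refine (abs_integral_le_integral_abs).trans ((integral_mono (hi1.sub hi2).abs
    ((((integrable_count_pow _ k).sub hid).const_mul (B ^ k)).const_mul ((N : ℝ) ^ k)⁻¹)
    fun m => ?_).trans_eq ?_)
  · simp only [Pi.sub_apply]
    rw [← mul_sub, abs_mul, abs_of_nonneg (a := ((N : ℝ) ^ k)⁻¹) (by positivity)]
    exact mul_le_mul_of_nonneg_left (hkey m) (by positivity)
  · simp only [Pi.sub_apply]
    rw [integral_const_mul, integral_const_mul, integral_sub (integrable_count_pow _ k) hid, hd1]
    ring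

lemma patG_lincomb (hf : Continuous f) (μ : ℝ) {ι : Type*} [Fintype ι] [DecidableEq ι]
    {c : ι → ℝ} {o : ι → Obs n} (ho : ∀ i, (o i).Good) :
    patG f s x P μ (fun _ : Fin k => fun v => ∑ i, c i * (o i).eval v) =
      ∑ ch : Fin k → ι, (∏ j, c (ch j)) *
        (sysState P f s x μ).patMean f (fun _ => 1) fun j => o (ch j) := by
  simp only [patMean_eq_patG hf μ (fun j => ho _), patG, tupMean]
  choose hc hc' C hC using ho
  have hbd : ∀ (ch : Fin k → ι) (a : ℕ) (q : (Fin (a + k) → Fin N → ℝ) × (PertIdx N L → ℝ)),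
      |rep n (finH f s x q) (fun σ : Fin n → Conf P =>
        ∏ j, (o (ch j)).eval (fld (q.1 (Fin.natAdd a j)) σ))| ≤ ∏ j, C (ch j) * C (ch j) :=
    fun ch a q => abs_rep_le _ fun σ => by
      rw [Finset.abs_prod]
      refine Finset.prod_le_prod (fun j _ => abs_nonneg _) fun j _ => ?_
      rw [Obs.eval, abs_mul]
      exact mul_le_mul (hC _ _).1 (hC _ _).2 (abs_nonneg _) ((abs_nonneg _).trans (hC _ 0).1)
  have hm : ∀ (ch : Fin k → ι) (a : ℕ), Measurable fun q :
      (Fin (a + k) → Fin N → ℝ) × (PertIdx N L → ℝ) => rep n (finH f s x q)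
        (fun σ : Fin n → Conf P => ∏ j, (o (ch j)).eval (fld (q.1 (Fin.natAdd a j)) σ)) :=
    fun ch a => measurable_rep (measurable_finH hf) fun σ => Finset.measurable_prod _ fun j _ =>
      (((hc _).measurable.comp (measurable_dot_left _)).mul
        ((hc' _).measurable.comp (measurable_dot_left _))).comp
        ((measurable_pi_apply _).comp measurable_fst)
  simp only [← integral_const_mul]
  rw [← integral_finsetSum _ fun ch _ => integrable_of_abs_le Measurable.of_discrete
    fun a => abs_integral_le fun q => by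
      rw [abs_mul]; exact mul_le_mul_of_nonneg_left (hbd ch a q) (abs_nonneg _)]
  refine integral_congr_ae (ae_of_all _ fun a => ?_)
  beta_reduce
  rw [← integral_finsetSum _ fun ch _ =>
    (integrable_of_abs_le (hm ch a) (hbd ch a)).const_mul _]
  refine integral_congr_ae (ae_of_all _ fun q => ?_)
  simp only [← rep_const_mul, ← rep_sum, Fintype.prod_sum, Finset.prod_mul_distrib]

/-- Powers of pattern averages converge to the powers of their values on the tree. -/
theorem tendsto_powMean (hcont : ContS) {α A C : ℝ} {f : ℝ → ℝ} (hf : Smooth f A)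
    {Nj : ℕ → ℕ} {Pj : ∀ j, Pts (Nj j)} {xj : ∀ j, Fin (Nj j) → ℝ} {μj : ℕ → ℝ} {ξ : ℕ → Path}
    (hN : Tendsto Nj atTop atTop) (hpos : ∀ j, 0 < Nj j) (hμ : ∀ j, 0 ≤ μj j)
    (hC : ∀ j, |μj j - α * Nj j| ≤ C)
    (happ : Approx Nj Pj (fun j => sysState (Pj j) f (scale (Nj j)) (xj j) (μj j)) ξ)
    {n : ℕ} {ι : Type*} [Fintype ι] [DecidableEq ι] (c : ι → ℝ) (o : ι → Obs n)
    (ho : ∀ i, (o i).Good) (k : ℕ) :
    Tendsto (fun j => powMean f (scale (Nj j)) (xj j) (Pj j) (μj j) k
        (fun v => ∑ i, c i * (o i).eval v) -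
      ∑ v : Vale.Agent.P168.Shape (ξ j).r n, Vale.Agent.P168.shapeProb (ξ j).m n v *
        (α * ∑ i, c i * (o i).val (ξ j) f v) ^ k) atTop (𝓝 0) := by
  have hfc := hf.continuous
  have hlim : Tendsto (fun j => μj j / (Nj j : ℝ)) atTop (𝓝 α) := by
    rw [tendsto_iff_norm_sub_tendsto_zero]
    refine squeeze_zero (fun j => norm_nonneg _) (fun j => ?_)
      ((tendsto_natCast_atTop_atTop.comp hN).const_div_atTop C)
    have : (0 : ℝ) < Nj j := by exact_mod_cast hpos j
    rw [Real.norm_eq_abs, show μj j / (Nj j : ℝ) - α = (μj j - α * Nj j) / Nj j by field_simp,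
      abs_div, abs_of_pos this]
    exact div_le_div_of_nonneg_right (hC j) this.le
  set G : (Fin n → ℝ) → ℝ := fun v => ∑ i, c i * (o i).eval v
  obtain ⟨B, hB⟩ : ∃ B, ∀ v, |G v| ≤ B := by
    have ho' := ho
    choose _ _ D hD using ho'
    refine ⟨∑ i, |c i| * (D i * D i), fun v => (Finset.abs_sum_le_sum_abs _ _).trans
      (Finset.sum_le_sum fun i _ => ?_)⟩
    rw [Obs.eval, abs_mul, abs_mul]
    exact mul_le_mul_of_nonneg_left (mul_le_mul (hD i _).1 (hD i _).2 (abs_nonneg _)
      ((abs_nonneg _).trans (hD i 0).1)) (abs_nonneg _)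
  have hGm : Measurable G := Finset.measurable_sum _ fun i _ =>
    (((ho i).1.measurable.comp (measurable_pi_apply _)).mul
      ((ho i).2.1.measurable.comp (measurable_pi_apply _))).const_mul _
  set S := fun j => sysState (Pj j) f (scale (Nj j)) (xj j) (μj j)
  set Pp := fun j => patG f (scale (Nj j)) (xj j) (Pj j) (μj j) (fun _ : Fin k => G)
  set T := fun j => ∑ v : Vale.Agent.P168.Shape (ξ j).r n, Vale.Agent.P168.shapeProb (ξ j).m n v *
    (∑ i, c i * (o i).val (ξ j) f v) ^ k
  -- the fresh patterns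
  have hPT : Tendsto (fun j => Pp j - T j) atTop (𝓝 0) := by
    have h := tendsto_finsetSum (Finset.univ : Finset (Fin k → ι)) fun ch _ =>
      (hcont A f hf Nj Pj S ξ hpos (fun j => sysState_isGood hfc _) happ k n (fun _ => 1)
        (fun j => o (ch j)) continuous_const fun j => ho _).const_mul (∏ j, c (ch j))
    simp only [mul_zero, Finset.sum_const_zero] at h
    refine h.congr fun j => ?_
    simp only [mul_sub, Finset.sum_sub_distrib]
    congr 1
    · exact (patG_lincomb hfc _ ho).symm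
    · simp only [T, Path.treePat, one_mul, Finset.mul_sum, Fintype.sum_pow, Finset.prod_mul_distrib]
      rw [Finset.sum_comm]
      exact Finset.sum_congr rfl fun v _ => Finset.sum_congr rfl fun ch _ => by ring
  have hPb : ∀ j, |Pp j| ≤ B ^ k := fun j => abs_integral_le fun m => abs_tupMean_le (fun _ => hB) _
  have h1 : Tendsto (fun j => powMean f (scale (Nj j)) (xj j) (Pj j) (μj j) k G -
      (μj j / (Nj j : ℝ)) ^ k * Pp j) atTop (𝓝 0) := by
    refine squeeze_zero_norm (fun j => powMean_approx hfc (hμ j) k hGm hB) ?_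
    have h := (((tendsto_scaled_moment hN hμ hlim k).sub (hlim.pow k)).const_mul (B ^ k))
    rw [sub_self, mul_zero] at h
    refine h.congr fun j => ?_
    rw [div_pow, sub_div]
  have h2 : Tendsto (fun j => ((μj j / (Nj j : ℝ)) ^ k - α ^ k) * Pp j) atTop (𝓝 0) := by
    refine squeeze_zero_norm (fun j => ?_)
      (by simpa using (((hlim.pow k).sub_const (α ^ k)).abs.mul_const (B ^ k)))
    rw [Real.norm_eq_abs, abs_mul]
    exact mul_le_mul_of_nonneg_left (hPb j) (abs_nonneg _)
  have h := (h1.add h2).add (hPT.const_mul (α ^ k))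
  simp only [mul_zero, add_zero] at h
  refine h.congr fun j => ?_
  have e : ∑ v : Vale.Agent.P168.Shape (ξ j).r n, Vale.Agent.P168.shapeProb (ξ j).m n v *
      (α * ∑ i, c i * (o i).val (ξ j) f v) ^ k = α ^ k * T j := by
    simp only [T, mul_pow]
    rw [Finset.mul_sum]
    exact Finset.sum_congr rfl fun v _ => by ring
  rw [e]
  ring

end Vale.Agent.P157.Parisi.Sphere.Site
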