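import Vale.Agent.P157.Parisi.Sphere.Site.ExpMean
import Vale.Agent.P157.Parisi.Sphere.Site.Kappa

/-!
A lower bound on the cavity value by moments of the truncated field and the spread of the exponent.
-/

noncomputable section

open MeasureTheory ProbabilityTheory Filter Topology Finset
open scoped BigOperators NNReal

namespace Vale.Agent.P157.Parisi.Sphere.Site

open Vale.Agent.P157.Parisi.Site

variable {N L : ℕ} {P : Pts N} {f : ℝ → ℝ} {A T : ℝ}

lemma measurable_cavB (hf : Smooth f A) (T : ℝ) (σ : Conf P) :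
    Measurable fun d : Dis N L => cavB f T d σ :=
  (measurable_count_sum (F := fun g => deriv (deriv f) (dot g (unitVec σ)) -
    clampT T (dot g (unitVec σ)) * deriv f (dot g (unitVec σ)))
    ((hf.d2.continuous.measurable.comp (measurable_dot_left _)).sub
      (((measurable_clampT T).comp (measurable_dot_left _)).mul
        (hf.d1.continuous.measurable.comp (measurable_dot_left _))))).div_const _

lemma measurable_cavY (hf : Smooth f A) (σ : Conf P) :
    Measurable fun p : Dis N L × (ℕ → ℝ) => cavY f p.2 p.1 σ := by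
  have h : Measurable fun q : ℕ × (((ℕ → Fin N → ℝ) × (PertIdx N L → ℝ)) × (ℕ → ℝ)) =>
      (∑ a ∈ Finset.range q.1, q.2.2 a * deriv f (dot (q.2.1.1 a) (unitVec σ))) / Real.sqrt N :=
    measurable_from_prod_countable_right fun m => (Finset.measurable_sum (Finset.range m) fun a _ =>
      ((measurable_pi_apply a).comp measurable_snd).mul (hf.d1.continuous.measurable.comp
        ((measurable_dot_left _).comp ((measurable_pi_apply a).comp
          (measurable_fst.comp measurable_fst))))).div_const _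
  exact h.comp ((measurable_fst.comp measurable_fst).prodMk
    ((measurable_snd.comp measurable_fst).prodMk measurable_snd))

lemma abs_cavB_le (hf : Smooth f A) (hT : 0 ≤ T) (hN : 0 < N) (d : Dis N L) (σ : Conf P) :
    |cavB f T d σ| ≤ (d.1 : ℝ) * (A + T * A) := by
  have hN' : (1 : ℝ) ≤ N := by exact_mod_cast hN
  have h0 : 0 ≤ A + T * A := by
    have := (abs_nonneg _).trans (hf.b0 0)
    nlinarith
  rw [cavB, abs_div, abs_of_pos (show (0 : ℝ) < 2 * N by linarith)]
  refine (div_le_self (abs_nonneg _) (by linarith)).trans ?_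
  refine ((Finset.abs_sum_le_sum_abs _ _).trans (Finset.sum_le_sum fun a _ =>
    (abs_sub _ _).trans (add_le_add (hf.b2 _) ?_))).trans_eq
      (by rw [Finset.sum_const, Finset.card_range, nsmul_eq_mul])
  rw [abs_mul]
  exact mul_le_mul (abs_clampT_le hT _) (hf.b1 _) (abs_nonneg _) hT

lemma abs_cavY_le (hf : Smooth f A) (hN : 0 < N) (z : ℕ → ℝ) (d : Dis N L) (σ : Conf P) :
    |cavY f z d σ| ≤ A * ∑ a ∈ Finset.range d.1, |z a| := by
  have hs : (1 : ℝ) ≤ Real.sqrt N := Real.one_le_sqrt.2 (by exact_mod_cast hN)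
  rw [cavY, abs_div, abs_of_nonneg (Real.sqrt_nonneg _)]
  refine (div_le_self (abs_nonneg _) hs).trans ?_
  rw [Finset.mul_sum]
  refine (Finset.abs_sum_le_sum_abs _ _).trans (Finset.sum_le_sum fun a _ => ?_)
  rw [abs_mul, mul_comm A]
  exact mul_le_mul_of_nonneg_left (hf.b1 _) (abs_nonneg _)

/-- The spread of the cavity exponent around `κ`. -/
def devB (f : ℝ → ℝ) (T s : ℝ) (x : Fin L → ℝ) (P : Pts N) (μ κ : ℝ) : ℝ :=
  ∫ d, ∑ σ : Conf P, gib (totalH f s x d : Conf P → ℝ) σ * |cavB f T d σ - κ| ∂disLaw N L μ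

lemma integrable_dev (hf : Smooth f A) (hT : 0 ≤ T) (hN : 0 < N) (s : ℝ) (x : Fin L → ℝ)
    (μ κ : ℝ) : Integrable (fun d : Dis N L =>
      ∑ σ : Conf P, gib (totalH f s x d : Conf P → ℝ) σ * |cavB f T d σ - κ|) (disLaw N L μ) := by
  have hm : Measurable fun d : Dis N L =>
      ∑ σ : Conf P, gib (totalH f s x d : Conf P → ℝ) σ * |cavB f T d σ - κ| :=
    Finset.measurable_sum _ fun σ _ => ((measurable_totalH hf.continuous s x σ).exp.div
      (Finset.measurable_sum _ fun τ _ => (measurable_totalH hf.continuous s x τ).exp)).mul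
        ((measurable_cavB hf T σ).sub_const κ).abs
  refine ((integrable_count_fst μ (A + T * A)).add (integrable_const |κ|)).mono'
    hm.aestronglyMeasurable (ae_of_all _ fun d => ?_)
  rw [Real.norm_eq_abs, Pi.add_apply]
  refine (Finset.abs_sum_le_sum_abs _ _).trans ((Finset.sum_le_sum (g := fun σ =>
    gib (totalH f s x d : Conf P → ℝ) σ * ((d.1 : ℝ) * (A + T * A) + |κ|)) fun σ _ => ?_).trans_eq ?_)
  · rw [abs_mul, abs_abs, abs_of_nonneg (gib_nonneg _ _)]
    exact mul_le_mul_of_nonneg_left ((abs_sub _ _).trans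
      (add_le_add (abs_cavB_le hf hT hN d σ) le_rfl)) (gib_nonneg _ _)
  · rw [← Finset.sum_mul, sum_gib, one_mul]

lemma powMean_expo (f : ℝ → ℝ) (T s : ℝ) (x : Fin L → ℝ) (μ : ℝ) (k : ℕ) :
    powMean f s x P μ k (fun v => ∑ _i : Unit, (1 / 2 : ℝ) * (expoO f T).eval v) =
      ∫ d, ∑ σ : Conf P, gib (totalH f s x d : Conf P → ℝ) σ * cavB f T d σ ^ k ∂disLaw N L μ := by
  refine integral_congr_ae (ae_of_all _ fun d => ?_)
  show rep 1 _ _ = ∑ σ : Conf P, gib (totalH f s x d : Conf P → ℝ) σ * cavB f T d σ ^ k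
  rw [← rep_one (totalH f s x d : Conf P → ℝ) (fun σ => cavB f T d σ ^ k)]
  congr 1
  funext σ
  congr 1
  simp only [Finset.univ_unique, Finset.sum_singleton, Obs.eval, expoO, fld, mul_one, cavB,
    ← Finset.mul_sum]
  ring

variable {α C : ℝ} {Nj : ℕ → ℕ} {Pj : ∀ j, Pts (Nj j)} {xj : ∀ j, Fin (Nj j) → ℝ} {μj : ℕ → ℝ} {ξ : ℕ → Path}

/-- The cavity exponent concentrates. -/
theorem eventually_devB (hcont : ContS) (h : Setup α A C f Nj Pj xj μj ξ) (hT : 0 ≤ T)
    {η : ℝ} (hη : 0 < η) :
    ∀ᶠ j in atTop, devB f T (scale (Nj j)) (xj j) (Pj j) (μj j) (kappaOf α f T (ξ j)) ≤ η := by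
  have hA0 : 0 ≤ A := (abs_nonneg _).trans (h.smooth.b0 0)
  have hgood : ∀ _i : Unit, (expoO f T).Good := fun _ =>
    ⟨h.smooth.d2.continuous.sub ((continuous_clampT T).mul h.smooth.d1.continuous), continuous_const,
      A + T * A + 1, fun z => ⟨le_trans ((abs_sub _ _).trans (add_le_add (h.smooth.b2 z)
        ((abs_mul _ _).trans_le (mul_le_mul (abs_clampT_le hT z) (h.smooth.b1 z) (abs_nonneg _) hT))))
          (by linarith), by simp only [expoO, abs_one]; nlinarith [mul_nonneg hT hA0]⟩⟩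
  set pm : ℕ → ℕ → ℝ := fun k j => powMean f (scale (Nj j)) (xj j) (Pj j) (μj j) k
    (fun v => ∑ _i : Unit, (1 / 2 : ℝ) * (expoO f T).eval v)
  have hlim : ∀ k, Tendsto (fun j => pm k j - kappaOf α f T (ξ j) ^ k) atTop (𝓝 0) := fun k => by
    refine (tendsto_powMean hcont h.smooth h.large h.pos h.mu_nonneg h.mu_near h.approx
      (fun _ : Unit => (1 / 2 : ℝ)) (fun _ => expoO f T) hgood k).congr fun j => ?_
    congr 1
    rw [sum_shape_one]
    simp only [Finset.univ_unique, Finset.sum_singleton, Obs.val, expoO, mul_one, if_true, kappaOf]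
    ring
  have hκ : ∀ᶠ j in atTop, |kappaOf α f T (ξ j)| ≤ (A + T * A) * (α + 1) + 1 := by
    filter_upwards [Metric.tendsto_nhds.1 (hlim 1) 1 one_pos,
      h.tendsto_ratio.eventually (gt_mem_nhds (lt_add_one α))] with j hj hr
    rw [Real.dist_eq, sub_zero, pow_one] at hj
    have hN : (0 : ℝ) < Nj j := by exact_mod_cast h.pos j
    have hb : |pm 1 j| ≤ (A + T * A) * (α + 1) := by
      simp only [pm, powMean_expo, pow_one]
      rw [← Real.norm_eq_abs]
      refine (norm_integral_le_of_norm_le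
        (g := fun d : Dis (Nj j) (Nj j) => (d.1 : ℝ) * ((A + T * A) / Nj j))
        (integrable_count_fst _ _) (ae_of_all _ fun d => ?_)).trans ?_
      · rw [Real.norm_eq_abs]
        refine (Finset.abs_sum_le_sum_abs _ _).trans ((Finset.sum_le_sum (g := fun σ =>
          gib (totalH f (scale (Nj j)) (xj j) d : Conf (Pj j) → ℝ) σ * ((d.1 : ℝ) * ((A + T * A) / Nj j)))
          fun σ _ => ?_).trans_eq ?_)
        · rw [abs_mul, abs_of_nonneg (gib_nonneg _ _)]
          refine mul_le_mul_of_nonneg_left ?_ (gib_nonneg _ _)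
          rw [cavB, abs_div, abs_of_pos (show (0 : ℝ) < 2 * (Nj j : ℝ) by linarith), mul_div_assoc']
          refine div_le_div₀ (by positivity) ?_ hN (by linarith)
          refine ((Finset.abs_sum_le_sum_abs _ _).trans (Finset.sum_le_sum fun a _ =>
            (abs_sub _ _).trans (add_le_add (h.smooth.b2 _) ?_))).trans_eq
              (by rw [Finset.sum_const, Finset.card_range, nsmul_eq_mul])
          rw [abs_mul]
          exact mul_le_mul (abs_clampT_le hT _) (h.smooth.b1 _) (abs_nonneg _) hT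
        · rw [← Finset.sum_mul, sum_gib, one_mul]
      · rw [disLaw, integral_fun_fst (fun m : ℕ => (m : ℝ) * _), probReal_univ, one_smul,
          integral_mul_const, Vale.Agent.P168.Toolkit.integral_count,
          Real.coe_toNNReal _ (h.mu_nonneg j), ← mul_div_assoc, mul_comm, mul_div_assoc]
        exact mul_le_mul_of_nonneg_left hr.le (by positivity)
    have := abs_lt.1 hj
    have := abs_le.1 hb
    rw [abs_le]
    constructor <;> linarith
  set K := (A + T * A) * (α + 1) + 1
  have h2 : ∀ᶠ j in atTop, pm 2 j - 2 * kappaOf α f T (ξ j) * pm 1 j +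
      kappaOf α f T (ξ j) ^ 2 ≤ η ^ 2 / 4 := by
    have hK : 0 ≤ K := by have := h.alpha; positivity
    have ht := (((hlim 2).abs).add (((hlim 1).abs).const_mul (2 * K))).eventually
      (gt_mem_nhds (show |(0 : ℝ)| + 2 * K * |(0 : ℝ)| < η ^ 2 / 4 by rw [abs_zero, mul_zero, zero_add]; positivity))
    filter_upwards [ht, hκ] with j hj hk
    simp only [pow_one] at hj
    refine le_trans ?_ hj.le
    have e := mul_le_mul_of_nonneg_right hk (abs_nonneg (pm 1 j - kappaOf α f T (ξ j)))
    rw [← abs_mul] at e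
    have := neg_abs_le (kappaOf α f T (ξ j) * (pm 1 j - kappaOf α f T (ξ j)))
    have := le_abs_self (pm 2 j - kappaOf α f T (ξ j) ^ 2)
    nlinarith
  filter_upwards [h2] with j hj
  set κ := kappaOf α f T (ξ j)
  set s := scale (Nj j)
  have hi : ∀ k, Integrable (fun d : Dis (Nj j) (Nj j) =>
      ∑ σ : Conf (Pj j), gib (totalH f s (xj j) d) σ * cavB f T d σ ^ k)
      (disLaw (Nj j) (Nj j) (μj j)) := fun k => by
    refine (((integrable_count_pow (μj j).toNNReal k).const_mul ((A + T * A) ^ k)).comp_fst _).mono'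
      (Finset.measurable_sum _ fun σ _ => ((measurable_totalH h.smooth.continuous s (xj j) σ).exp.div
        (Finset.measurable_sum _ fun τ _ => (measurable_totalH h.smooth.continuous s (xj j) τ).exp)).mul
          ((measurable_cavB h.smooth T σ).pow_const k)).aestronglyMeasurable (ae_of_all _ fun d => ?_)
    rw [Real.norm_eq_abs]
    refine (Finset.abs_sum_le_sum_abs _ _).trans ((Finset.sum_le_sum (g := fun σ =>
      gib (totalH f s (xj j) d) σ * ((A + T * A) ^ k * (d.1 : ℝ) ^ k)) fun σ _ => ?_).trans_eq ?_)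
    · rw [abs_mul, abs_of_nonneg (gib_nonneg _ _), abs_pow, ← mul_pow, mul_comm (A + T * A)]
      exact mul_le_mul_of_nonneg_left
        (pow_le_pow_left₀ (abs_nonneg _) (abs_cavB_le h.smooth hT (h.pos j) d σ) k) (gib_nonneg _ _)
    · rw [← Finset.sum_mul, sum_gib, one_mul]
  have hle : ∀ d : Dis (Nj j) (Nj j),
      (∑ σ : Conf (Pj j), gib (totalH f s (xj j) d) σ * |cavB f T d σ - κ|) ≤
        η / 2 + (2 / η) * ((∑ σ : Conf (Pj j), gib (totalH f s (xj j) d) σ * cavB f T d σ ^ 2) -
          2 * κ * (∑ σ : Conf (Pj j), gib (totalH f s (xj j) d) σ * cavB f T d σ ^ 1) + κ ^ 2) := by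
    intro d
    have e : ∀ σ : Conf (Pj j), gib (totalH f s (xj j) d) σ * |cavB f T d σ - κ| ≤
        η / 2 * gib (totalH f s (xj j) d) σ + 2 / η * (gib (totalH f s (xj j) d) σ * cavB f T d σ ^ 2) -
        2 / η * (2 * κ) * (gib (totalH f s (xj j) d) σ * cavB f T d σ ^ 1) +
        2 / η * κ ^ 2 * gib (totalH f s (xj j) d) σ := fun σ => by
      have hb : |cavB f T d σ - κ| ≤ η / 2 + 2 / η * (cavB f T d σ - κ) ^ 2 := by
        rcases le_total |cavB f T d σ - κ| (η / 2) with hle | hle
        · exact hle.trans (le_add_of_nonneg_right (by positivity))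
        · refine le_trans ?_ (le_add_of_nonneg_left (by positivity))
          rw [div_mul_eq_mul_div, le_div_iff₀ hη, ← sq_abs (cavB f T d σ - κ)]
          nlinarith [abs_nonneg (cavB f T d σ - κ)]
      refine (mul_le_mul_of_nonneg_left hb (gib_nonneg (totalH f s (xj j) d) σ)).trans_eq ?_
      ring
    refine (Finset.sum_le_sum fun σ _ => e σ).trans_eq ?_
    simp only [Finset.sum_add_distrib, Finset.sum_sub_distrib, ← Finset.mul_sum, sum_gib]
    ring
  set I₁ : Dis (Nj j) (Nj j) → ℝ := fun d =>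
    ∑ σ : Conf (Pj j), gib (totalH f s (xj j) d) σ * cavB f T d σ ^ 1
  set I₂ : Dis (Nj j) (Nj j) → ℝ := fun d =>
    ∑ σ : Conf (Pj j), gib (totalH f s (xj j) d) σ * cavB f T d σ ^ 2
  have hq : Integrable (fun d => η / 2 + (2 / η) * (I₂ d - 2 * κ * I₁ d + κ ^ 2))
      (disLaw (Nj j) (Nj j) (μj j)) :=
    (integrable_const _).add ((((hi 2).sub ((hi 1).const_mul _)).add (integrable_const _)).const_mul _)
  refine (integral_mono (integrable_dev h.smooth hT (h.pos j) s (xj j) (μj j) κ) hq hle).trans ?_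
  have e2 : ∫ d, (η / 2 + (2 / η) * (I₂ d - 2 * κ * I₁ d + κ ^ 2)) ∂disLaw (Nj j) (Nj j) (μj j) =
      η / 2 + 2 / η * (pm 2 j - 2 * κ * pm 1 j + κ ^ 2) := by
    have i1 : Integrable (fun d => I₂ d - 2 * κ * I₁ d) (disLaw (Nj j) (Nj j) (μj j)) :=
      (hi 2).sub ((hi 1).const_mul _)
    have i2 : Integrable (fun d => I₂ d - 2 * κ * I₁ d + κ ^ 2) (disLaw (Nj j) (Nj j) (μj j)) :=
      i1.add (integrable_const _)
    rw [integral_add (integrable_const _) (i2.const_mul _), integral_const_mul,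
      integral_add i1 (integrable_const _), integral_sub (hi 2) ((hi 1).const_mul _),
      integral_const_mul]
    simp only [pm, powMean_expo, integral_const, probReal_univ, one_smul, I₁, I₂, s]
  rw [e2]
  calc η / 2 + 2 / η * (pm 2 j - 2 * κ * pm 1 j + κ ^ 2)
      ≤ η / 2 + 2 / η * (η ^ 2 / 4) := by
        gcongr
    _ = η := by field_simp; ring

end Vale.Agent.P157.Parisi.Sphere.Site
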